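import Vale.Agent.P283R.Ck.St

/-!
# P283R, block CK: the Cox data with the generators `1` and `s` (row BLD)
-/

open Set

noncomputable section

namespace Vale.Agent.P283R.Ck

open Vale.Agent.P287D Vale.Agent.P283M Vale.Agent.P297Z Cx Cy Cq
open Wc (Dr)

namespace B40

variable {L : Type} [Field L] [Algebra ℂ L] {c l k : ℕ} {e : Fin k → Pl L} {T : Set (Pl L)}
  {S : Finset (Pl L)} {s : Fin l → L}

theorem dr_at (he : Function.Injective e) (v : Fin k → ℤ) (i : Fin k) : v ⬝ᵥ Dr e (e i) = v i := by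
  rw [dotProduct, Finset.sum_eq_single i (fun i' _ n => by
    rw [Dr, if_neg fun z => n (he z).symm, mul_zero]) (by simp), Dr, if_pos rfl, mul_one]

theorem dr_off {P : Pl L} (h : P ∉ range e) : Dr e P = 0 :=
  funext fun i => if_neg fun z : P = e i => h ⟨i, z.symm⟩

theorem ord_mon (s0 : ∀ j, s j ≠ 0) (P : Pl L) (w : Fin l → ℕ) :
    P.ord (∏ j, s j ^ w j) = ∑ j, (w j : ℤ) * P.ord (s j) := by
  have k : ∀ t : Finset (Fin l), P.ord (∏ j ∈ t, s j ^ w j) = ∑ j ∈ t, (w j : ℤ) * P.ord (s j) :=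
    fun t => by
      induction t using Finset.induction_on with
      | empty => simp
      | insert j t hj ih =>
        rw [Finset.prod_insert hj, Finset.sum_insert hj, Pl.ord_mul _ (pow_ne_zero _ (s0 j))
          (Finset.prod_ne_zero_iff.2 fun i _ => pow_ne_zero _ (s0 i)), Pl.ord_pow, ih]
  exact k _

theorem dg_eq (u : Fin (k + l) → ℕ) (i : Fin k) :
    dg (Fin.append (fun i => Pi.single i 1) fun j i => -(e i).ord (s j)) u i =
      u (Fin.castAdd l i) - ∑ j, (u (Fin.natAdd k j) : ℤ) * (e i).ord (s j) := by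
  simp [dg, Fin.sum_univ_add, Pi.single_apply, sub_eq_add_neg]

theorem cox (h : Mb c T S s) (he : Function.Injective e) (hr : ∀ P, P ∈ range e ↔ P ∈ S) :
    Cox T (Dr e) (Fin.append (fun _ : Fin k => (1 : L)) s)
      (Fin.append (fun i => Pi.single i 1) fun j i => -(e i).ord (s j)) := by
  have s0 : ∀ j, s j ≠ 0 := fun j => (h.s0 j).1
  have sec : ∀ v φ, φ ≠ 0 → (φ ∈ Sp (Fin.append (fun _ : Fin k => (1 : L)) s)
      (Fin.append (fun i => Pi.single i 1) fun j i => -(e i).ord (s j)) v ↔
        ∀ P ∈ T, 0 ≤ P.ord φ + v ⬝ᵥ Dr e P) := by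
    refine fun v φ φ0 => ⟨fun hφ P hP => ?_, fun hφ => ?_⟩
    · have : φ ∈ P.sub ((v ⬝ᵥ Dr e P : ℤ) : ℝ) := by
        refine Submodule.span_le.2 ?_ hφ
        rintro _ ⟨u, rfl, rfl⟩
        refine Or.inr ?_
        have o : P.ord (∏ j, Fin.append (fun _ : Fin k => (1 : L)) s j ^ u j) =
            ∑ j, (u (Fin.natAdd k j) : ℤ) * P.ord (s j) := by
          rw [← ord_mon s0]
          simp [Fin.prod_univ_add]
        have : 0 ≤ P.ord (∏ j, Fin.append (fun _ : Fin k => (1 : L)) s j ^ u j) +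
            dg (Fin.append (fun i => Pi.single i 1) fun j i => -(e i).ord (s j)) u ⬝ᵥ Dr e P := by
          rw [o]
          by_cases hx : P ∈ range e
          · obtain ⟨i, rfl⟩ := hx
            rw [dr_at he, dg_eq]
            omega
          · rw [dr_off hx, dotProduct_zero, add_zero]
            exact Finset.sum_nonneg fun j _ => mul_nonneg (Int.natCast_nonneg _)
              ((h.s0 j).2 P hP fun x => hx ((hr P).2 x))
        exact_mod_cast this
      exact_mod_cast this.resolve_left φ0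
    · refine Submodule.span_le.2 ?_ (h.mono φ fun P hP n => ?_)
      · rintro _ ⟨⟨w, rfl⟩, hw⟩
        refine Submodule.subset_span ⟨Fin.append
          (fun i => (v i + (e i).ord (∏ j, s j ^ w j)).toNat) w, funext fun i => ?_, ?_⟩
        · have a := hw _ ((hr _).1 ⟨i, rfl⟩)
          have b := hφ _ (h.sub ((hr _).1 ⟨i, rfl⟩))
          rw [dr_at he] at b
          rw [dg_eq]
          simp only [Fin.append_left, Fin.append_right]
          rw [← ord_mon s0]
          omega
        · simp [Fin.prod_univ_add]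
      · have := hφ P hP
        rwa [dr_off fun x => n ((hr P).1 x), dotProduct_zero, add_zero] at this
  have one : ∀ v : Fin k → ℤ, (∀ i, 0 ≤ v i) → (1 : L) ∈ Sp (Fin.append (fun _ : Fin k => (1 : L)) s)
      (Fin.append (fun i => Pi.single i 1) fun j i => -(e i).ord (s j)) v := fun v hv =>
    (sec v 1 one_ne_zero).2 fun P _ => by
      by_cases hx : P ∈ range e
      · obtain ⟨i, rfl⟩ := hx
        simpa [dr_at he] using hv i
      · simp [dr_off hx]
  refine ⟨fun j => ?_, sec, fun φ v => ?_, fun φ => ?_, fun v => ?_⟩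
  · refine Fin.addCases (fun i => ?_) (fun i => ?_) j
    · simp
    · simpa using s0 i
  · refine ((h.fin φ).union (finite_range e)).subset fun P hP => ?_
    by_contra n
    rw [mem_union, not_or] at n
    refine hP.2 ?_
    rw [dr_off n.2, dotProduct_zero, add_zero]
    exact not_not.1 fun x => n.1 ⟨hP.1, x⟩
  · by_cases φ0 : φ = 0
    · exact ⟨0, 0, zero_mem _, 1, one 0 fun _ => le_rfl, one_ne_zero, by simp [φ0]⟩
    obtain ⟨g, g0, hg⟩ := h.pri (fun P => max 0 (-P.ord φ)) ((h.fin φ).subset fun P hP =>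
      ⟨hP.1, fun x => hP.2 (by simp [x])⟩)
    refine ⟨fun i => max (-(e i).ord g) (-(e i).ord (φ * g)), φ * g,
      (sec _ _ (mul_ne_zero φ0 g0)).2 fun P hP => ?_, g, (sec _ _ g0).2 fun P hP => ?_, g0,
      (mul_div_cancel_right₀ φ g0).symm⟩
    · by_cases hx : P ∈ range e
      · obtain ⟨i, rfl⟩ := hx
        rw [dr_at he]
        omega
      · rw [dr_off hx, dotProduct_zero, Pl.ord_mul _ φ0 g0, hg P hP fun x => hx ((hr P).2 x)]
        omega
    · by_cases hx : P ∈ range e
      · obtain ⟨i, rfl⟩ := hx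
        rw [dr_at he]
        omega
      · rw [dr_off hx, dotProduct_zero, hg P hP fun x => hx ((hr P).2 x)]
        omega
  · exact ⟨fun i => |v i|, 1, one _ fun i => by
      have := neg_abs_le (v i)
      rw [Pi.add_apply]
      omega, 1, one _ fun i => abs_nonneg _, one_ne_zero, one_ne_zero⟩

end B40

open B40

/-- **BLD** -/
theorem bld40 : BLD := by
  intro L _ _ c l T S s y h lam mb fr h0 hk l0 l1 l2
  classical
  obtain ⟨e, he, hr⟩ : ∃ e : Fin S.card → Pl L, Function.Injective e ∧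
      ∀ P, P ∈ range e ↔ P ∈ S :=
    ⟨fun i => S.equivFin.symm i, Subtype.val_injective.comp S.equivFin.symm.injective, fun P =>
      ⟨fun ⟨i, x⟩ => x ▸ (S.equivFin.symm i).2, fun x => ⟨S.equivFin ⟨P, x⟩, by simp⟩⟩⟩
  choose z hz using Cb.kap_int y
  refine ⟨⟨S.card, S.card + l, T, Dr e, Fin.append (fun _ => 1) s,
    Fin.append (fun i => Pi.single i 1) fun j i => -(e i).ord (s j), y, h,
    fun i => z (e i) - (e i).ord h, lam,
    fun p i => (if e i = p then 1 else 0) - (e i).ord (lam p), S⟩,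
    ⟨mb.ff, fr, cox mb he hr, ⟨h0, fun P hP => ?_⟩, l0, fun p hp P hP => ?_,
      fun p _ n => dr_off fun x => n ((hr p).1 x), le_rfl, Nat.le_add_right _ _⟩,
    rfl, rfl, rfl, rfl, rfl, fun j => ?_, fun j =>
      ⟨Fin.natAdd S.card j, Fin.append_right (fun _ : Fin S.card => (1 : L)) s j⟩⟩
  · by_cases hx : P ∈ range e
    · obtain ⟨i, rfl⟩ := hx
      simp [dr_at he, hz]
    · simp [dr_off hx, hk P hP fun x => hx ((hr P).2 x)]
  · by_cases hx : P ∈ range e
    · obtain ⟨i, rfl⟩ := hx
      simp [dr_at he]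
    · have n : P ∉ S := fun x => hx ((hr P).2 x)
      simp only [dr_off hx, dotProduct_zero, add_zero]
      by_cases ps : p ∈ S
      · rw [l1 p ps, if_neg fun x : P = p => n (x ▸ ps)]
        simp
      · exact l2 p hp ps P hP n
  · refine Fin.addCases (fun i => Or.inl ?_) (fun i => Or.inr ⟨i, ?_⟩) j
    · exact Fin.append_left (fun _ : Fin S.card => (1 : L)) s i
    · exact (Fin.append_right (fun _ : Fin S.card => (1 : L)) s i).symm

end Vale.Agent.P283R.Ck
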