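import Vale.Agent.P283R.Ck.St
import Vale.Agent.P283R.Cq.Base20

/-!
# P283R, block CK: the data of the base
-/

open Set CategoryTheory AlgebraicGeometry

noncomputable section

namespace Vale.Agent.P283R.Ck

namespace B20

open Vale.Agent.P287D Vale.Agent.P283R.Cx Vale.Agent.P297Z Cq
open Vale.Agent.P283M.Stm Vale.Agent.P283M.Stm.Var Vale.Agent.P283M Vale.Agent.P283M.Br
open Vale.Agent.P283R.Gl Vale.Agent.P283R.Sg.T20

theorem base (pln : PLN) (bld : BLD) {X : Var} {l : ℕ} (S : Finset X.PrimeDiv) (s : Fin l → X.K)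
    (u : Fin l → Fin 2 → Fin l → ℚ)
    (h1 : ∀ G : X.PrimeDiv →₀ ℤ, ∃ g, g ≠ 0 ∧ ∀ F ∉ S, ord g F = G F)
    (h2 : ∀ j, s j ≠ 0 ∧ ∀ F ∉ S, 0 ≤ ord (s j) F)
    (h3 : ∀ g, (∀ F ∉ S, 0 ≤ ord g F) → g ∈ Submodule.span ℂ
      {x | (∃ w : Fin l → ℕ, x = ∏ j, s j ^ w j) ∧ ∀ F ∈ S, ord g F ≤ ord x F})
    (h4 : ∀ F ∈ S, ∃ j, (fun i => (ord (s i) F : ℚ)) ∈ Submodule.span ℚ (Set.range (u j))) :
    ∃ (c : ℕ) (b : Ba X.K c), Kk b s ∧ b.T = range pq := by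
  classical
  obtain ⟨c, hK⟩ := Md.exists_ff X
  obtain ⟨y, hy, -⟩ := id hK
  have mS : ∀ E, pq E ∈ S.image pq ↔ E ∈ S := fun E => pq_inj.mem_finset_image
  have mb : Mb c (range pq) (S.image pq) s := by
    refine ⟨hK, fun p a => ?_, fun φ => ((fin X φ).image pq).subset ?_, fun G f => ?_,
      fun j => ⟨(h2 j).1, ?_⟩, fun g hg => Submodule.span_mono ?_ (h3 g fun F c =>
        (pq_ord F g).symm ▸ hg _ ⟨F, rfl⟩ fun a => c ((mS F).1 a))⟩
    · obtain ⟨E, -, rfl⟩ := Finset.mem_image.1 a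
      exact ⟨E, rfl⟩
    · rintro _ ⟨⟨E, rfl⟩, a⟩
      exact ⟨E, fun e => a ((pq_ord E φ).symm.trans e), rfl⟩
    · obtain ⟨g, g0, e⟩ := h1 (Finsupp.ofSupportFinite (fun E => G (pq E))
        ((f.preimage pq_inj.injOn).subset fun E a => ⟨⟨E, rfl⟩, a⟩))
      refine ⟨g, g0, ?_⟩
      rintro _ ⟨E, rfl⟩ a
      exact (pq_ord E g).symm.trans (e E fun b => a ((mS E).2 b))
    · rintro _ ⟨E, rfl⟩ a
      exact pq_ord E (s j) ▸ (h2 j).2 E fun b => a ((mS E).2 b)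
    · rintro x ⟨a, b⟩
      refine ⟨a, fun p w => ?_⟩
      obtain ⟨E, e, rfl⟩ := Finset.mem_image.1 w
      rw [← pq_ord, ← pq_ord]
      exact b E e
  choose z hz using Cb.kap_int y
  obtain ⟨j, j0, ej⟩ := mb.pri z (((Cq.B20.kfin hK hy).image pq).subset (by
    rintro _ ⟨⟨E, rfl⟩, a⟩
    refine ⟨E, fun b => a ?_, rfl⟩
    rw [hz] at b
    exact_mod_cast b))
  choose lam l0 hl using fun p => mb.pri (fun p' => if p' = p then 1 else 0)
    ((finite_singleton p).subset fun p' a => by_contra fun b => a.2 (if_neg b))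
  obtain ⟨b, ok, eT, eS, -, -, el, -, sg⟩ := bld X.K c l _ _ s y j
    (fun p => if p ∈ S.image pq then 1 else lam p) mb (Cb.fr_of hK hy) j0
    (fun p a b => by rw [hz, ej p a b])
    (fun p => by
      split_ifs
      exacts [one_ne_zero, l0 p])
    (fun p a => if_pos a) fun p _ a p' b b' => by
      rw [if_neg a, hl p p' b b']
  refine ⟨c, b, ⟨eS ▸ ok, eT ▸ eS ▸ mb, fun p a => ?_, sg, fun A hA => ?_⟩, eT⟩
  · rw [el]
    exact if_pos (eS ▸ a)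
  · refine pln l _ (fun p j => p.ord (s j)) u A fun p a => ?_
    obtain ⟨E, e, rfl⟩ := Finset.mem_image.1 (eS ▸ hA a)
    simpa only [pq_ord] using h4 E e

end B20

/-- **BSR** -/
theorem bsr20 : BSR := fun pln bld Y _ ⟨S, s, u, h1, h2, h3, h4⟩ =>
  let ⟨c, b, h⟩ := B20.base pln bld (X := Y.o) S s u h1 h2 h3 h4
  ⟨c, b, s, h⟩

end Vale.Agent.P283R.Ck
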