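import Vale.Agent.P283R.Ck.St
import Vale.Agent.P283R.Cq.Car13
import Vale.Agent.P283R.Tb.Abs13

/-!
# P283R, block CK: Caratheodory on the primes over the boundary
-/

open Set

noncomputable section

namespace Vale.Agent.P283R.Ck

open Vale.Agent.P287D Vale.Agent.P283M Vale.Agent.P297Z Cx Cq

/-- some member of a spanning set has a small order -/
theorem K13.mn {L K : Type} [Field L] [Algebra ℂ L] [Field K] [Algebra ℂ K] [Algebra L K]
    [IsScalarTower ℂ L K] (R : Pl K) {A : Set L} {g : L} (h : g ∈ Submodule.span ℂ A)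
    (g0 : g ≠ 0) : ∃ x ∈ A, R.ord (algebraMap L K x) ≤ R.ord (algebraMap L K g) := by
  by_contra! z
  have : Submodule.span ℂ A ≤ (R.sub (-(R.ord (algebraMap L K g) : ℝ) - 1)).comap
      (IsScalarTower.toAlgHom ℂ L K).toLinearMap := Submodule.span_le.2 fun x m => Or.inr (by
    have := Int.cast_le (R := ℝ).2 (Int.add_one_le_iff.2 (z x m))
    push_cast at this
    change 0 ≤ (R.ord (algebraMap L K x) : ℝ) + _
    linarith)
  rcases this h with k | k
  · exact g0 ((algebraMap L K).injective (k.trans (map_zero _).symm))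
  · change 0 ≤ (R.ord (algebraMap L K g) : ℝ) + _ at k
    linarith

/-- **CRK** -/
theorem crk13 : CRK := by
  intro L K _ _ _ _ _ _ c ρ b y T l s Q ξ kk fm h
  classical
  have y0 := fm.ext.ind.ne_zero
  have fin := (car13 L K c ρ b y T b.S fm).1
  let S := fin.toFinset
  have hS : ∀ P, P ∈ S ↔ P ∈ Kt y T b.S := fun P => fin.mem_toFinset
  have am : ∀ {a : L}, a ≠ 0 → algebraMap L K a ≠ 0 := fun a => (map_ne_zero _).2 a
  have ex : ∀ P ∉ S, ξ P ≠ 0 → ∃ p, (p ∈ b.T ∧ p ∉ b.S) ∧ At P p := fun P k m => by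
    by_contra z
    refine k ((hS P).2 ⟨(h.sup P m).1, (h.sup P m).2, fun p a e => ?_⟩)
    obtain v | ⟨p', v, w⟩ := fm.pg P (h.sup P m).1
    · exact e.e_pos.ne' (v.ord _)
    · exact z ⟨p, ⟨w.uniq e ▸ v, a⟩, e⟩
  have pg : ∀ P ∈ S, Trv (algebraMap L K) P ∨ ∃ p ∈ b.S, At P p := fun P k =>
    (fm.pg P ((hS P).1 k).1).imp_right fun ⟨p, _, e⟩ =>
      ⟨p, by_contra fun z => ((hS P).1 k).2.2 p z e, e⟩
  have lm : ∀ p ∈ b.T, ∀ p' ∈ b.T, p' ∉ b.S → p'.ord (b.lam p) = if p' = p then 1 else 0 :=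
    fun p a p' a' n => by
      have := kk.ok.lam p a p' a'
      rwa [kk.ok.sup p' a' n, dotProduct_zero, add_zero] at this
  let U : L → Prop := fun ψ => ψ ≠ 0 ∧ ∀ p ∈ b.T, p ∉ b.S → p.ord ψ = 0
  let F : Pl L ⊕ L → L := Sum.elim (fun p => if p ∈ b.T ∧ p ∉ b.S then b.lam p else 1)
    fun ψ => if U ψ then ψ else 1
  have F0 : ∀ i, F i ≠ 0 ∧ ∀ p ∈ b.T, p ∉ b.S → 0 ≤ p.ord (F i) := by
    rintro (p | ψ) <;> simp only [F, Sum.elim_inl, Sum.elim_inr] <;> split_ifs with k
    · refine ⟨kk.ok.l0 p, fun p' a n => ?_⟩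
      rw [lm p k.1 p' a n]
      split_ifs <;> simp
    · simp
    · exact ⟨k.1, fun p a n => (k.2 p a n).ge⟩
    · simp
  let r : Pl K → Pl L ⊕ L := fun P =>
    if k : ∃ p, (p ∈ b.T ∧ p ∉ b.S) ∧ At P p then .inl k.choose else .inr 1
  obtain ⟨Δ, D0, D1, D2⟩ := kk.gen (b.S.filter fun p => ∃ P ∈ S, ξ P ≠ 0 ∧ At P p)
    (Finset.filter_subset _ _)
  have : Inhabited (Pl K) := ⟨Q⟩
  choose! f f1 f2 f3 using fun p (m : p ∈ Δ) => (Finset.mem_filter.1 (D0 m)).2
  have fi : ∀ η : Pl K → ℝ, (∀ P, η P ≠ 0 → ξ P ≠ 0) → ∀ a : K,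
      (Function.support fun P => η P * (P.ord a : ℝ)).Finite := fun η e a =>
    (fm.fin a).subset fun P k =>
      ⟨(h.sup P (e P (left_ne_zero_of_mul k))).1, Int.cast_ne_zero.1 (right_ne_zero_of_mul k)⟩
  have hl : ∀ φ : L, φ ≠ 0 → ∑ᶠ P, ξ P * (P.ord (algebraMap L K φ) : ℝ) =
      Q.ord (algebraMap L K φ) := fun φ φ0 => by
    simpa [hm, To.mon] using h.eq φ 0 φ0
  have om : ∀ (P : Pl K) (w : Fin l → ℕ), P.ord (algebraMap L K (∏ j, s j ^ w j)) =
      ∑ j, w j * P.ord (algebraMap L K (s j)) := fun P w => by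
    rw [map_prod, P.ord_prod _ fun j _ => am (pow_ne_zero _ (kk.mb.s0 j).1)]
    simp only [map_pow, Pl.ord_pow]
  obtain ⟨ξ', t, a0, a1, a2, a3, a4, a5, a6, a7⟩ := Tb.C13.abs (β := Fin ρ ⊕ Fin l) S (Δ.image f) ξ
    h.nn (fun P => Sum.elim (fun j => P.ord (y j))
      fun j => if P ∈ S then P.ord (algebraMap L K (s j)) else 0)
    (fun P i => P.ord (algebraMap L K (F i))) r (fun i => Q.ord (algebraMap L K (F i)))
    (fun P k m => by
      have e := ex P k m
      obtain ⟨⟨u, v⟩, w⟩ := e.choose_spec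
      simp only [r, dif_pos e]
      refine ⟨Int.cast_pos.2 ?_, fun i n => Int.cast_eq_zero.2 ?_⟩
      · simp only [F, Sum.elim_inl, if_pos (And.intro u v)]
        rw [w.ord, lm _ u _ u v, if_pos rfl, mul_one]
        exact w.e_pos
      · rw [w.ord]
        refine mul_eq_zero_of_right _ ?_
        rcases i with p | ψ <;> simp only [F, Sum.elim_inl, Sum.elim_inr] <;> split_ifs with z
        · rw [lm _ z.1 _ u v, if_neg fun q => n (congrArg _ q.symm)]
        · simp
        · exact z.2 _ u v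
        · simp)
    (by
      rintro (j | j)
      · exact fi ξ (fun _ => id) _
      · exact S.finite_toSet.subset fun P k => by_contra fun z => k (by
          simp only [Sum.elim_inr, if_neg (show P ∉ S from z), mul_zero]))
    (fun i => fi ξ (fun _ => id) _) (fun i => hl _ (F0 i).1)
    fun ζ ζ0 ζ1 ζ2 e i => by
      have sp := kk.mb.mono _ (F0 i).2
      obtain ⟨_, ⟨⟨w, rfl⟩, w1⟩, w2⟩ := K13.mn Q sp (F0 i).1
      refine Tb.C13.dic S (Δ.image f) h.nn ζ0 (fun P k => ?_) (fun P k => ?_) ζ2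
        {w : Fin l → ℕ | ∀ p ∈ b.S, p.ord (F i) ≤ p.ord (∏ j, s j ^ w j)}
        (fun w P => P.ord (algebraMap L K (∏ j, s j ^ w j))) _ _ (fun P k m => ?_)
        (fun v _ v' _ z P k m => ?_) (a := w) w1 ?_ ?_
      · obtain ⟨p, m, rfl⟩ := Finset.mem_image.1 k
        exact f1 p m
      · rw [ζ1 P k]
        obtain ⟨p, m, rfl⟩ := Finset.mem_image.1 k
        exact f2 p m
      · have le : ∀ v : Fin l → ℕ, (∀ p ∈ b.S, p.ord (F i) ≤ p.ord (∏ j, s j ^ v j)) →
            P.ord (algebraMap L K (F i)) ≤ P.ord (algebraMap L K (∏ j, s j ^ v j)) := fun v z => by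
          obtain u | ⟨p, a, u⟩ := pg P k
          · rw [u.ord, u.ord]
          · rw [u.ord, u.ord (∏ j, s j ^ v j)]
            exact mul_le_mul_of_nonneg_left (z p a) u.e_pos.le
        obtain ⟨_, ⟨⟨v, rfl⟩, v1⟩, v2⟩ := K13.mn P sp (F0 i).1
        exact ⟨fun v z => Int.cast_le.2 (le v z), v, v1, congrArg _ ((le v v1).antisymm v2)⟩
      · have tr : ∀ {P : Pl K} {p : Pl L}, At P p → (P.ord (algebraMap L K (∏ j, s j ^ v j)) ≤
            P.ord (algebraMap L K (∏ j, s j ^ v' j)) ↔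
            0 ≤ (fun j => (v' j : ℤ) - v j) ⬝ᵥ fun j => p.ord (s j)) := fun {P p} u => by
          rw [← sub_nonneg, om, om, ← mul_nonneg_iff_of_pos_left (b := _ ⬝ᵥ _) u.e_pos, dotProduct,
            Finset.mul_sum, ← Finset.sum_sub_distrib]
          refine (congrArg _ (Finset.sum_congr rfl fun j _ => ?_)).to_iff
          rw [u.ord (s j)]
          ring
        obtain u | ⟨p, a, u⟩ := pg P k
        · simp only [u.ord, le_refl]
        · exact Int.cast_le.2 ((tr u).2 (D2 _ (fun p' m' => (tr (f3 p' m')).1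
            (Int.cast_le.1 (z _ (Finset.mem_image_of_mem f m')))) p
            (Finset.mem_filter.2 ⟨a, P, k, m, u⟩)))
      · have e' : ∀ j, ∑ P ∈ S, ζ P * (P.ord (algebraMap L K (s j)) : ℝ) =
            ∑ P ∈ S, ξ P * (P.ord (algebraMap L K (s j)) : ℝ) := fun j => by
          refine .trans (Finset.sum_congr rfl fun P k => ?_)
            ((e (.inr j) fun P k _ => if_neg k).trans (Finset.sum_congr rfl fun P k => ?_)) <;>
          rw [Sum.elim_inr, if_pos k]
        have e2 : ∀ η : Pl K → ℝ, ∑ P ∈ S, η P * (P.ord (algebraMap L K (∏ j, s j ^ w j)) : ℝ) =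
            ∑ j, w j * ∑ P ∈ S, η P * (P.ord (algebraMap L K (s j)) : ℝ) := fun η => by
          simp only [om, Int.cast_sum, Int.cast_mul, Finset.mul_sum, Int.cast_natCast]
          rw [Finset.sum_comm]
          exact Finset.sum_congr rfl fun _ _ => Finset.sum_congr rfl fun _ _ => by ring
        simp only [e2, e']
      · have x0 : ∏ j, s j ^ w j ≠ 0 :=
          Finset.prod_ne_zero_iff.2 fun j _ => pow_ne_zero _ (kk.mb.s0 j).1
        refine .trans ?_ ((hl _ x0).le.trans (Int.cast_le.2 w2))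
        have g := fi ξ (fun _ => id) (algebraMap L K (∏ j, s j ^ w j))
        rw [finsum_eq_sum_of_support_subset (s := S ∪ g.toFinset) _ fun P k =>
          Finset.mem_coe.2 (Finset.mem_union_right _ (g.mem_toFinset.2 k))]
        refine Finset.sum_le_sum_of_subset_of_nonneg Finset.subset_union_left fun P _ k => ?_
        by_cases m : ξ P = 0
        · simp [m]
        obtain ⟨p, ⟨u, v⟩, z⟩ := ex P k m
        refine mul_nonneg (h.nn P) (Int.cast_nonneg (by
          rw [om]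
          exact Finset.sum_nonneg fun j _ => mul_nonneg (Int.natCast_nonneg _) (by
            rw [z.ord]
            exact mul_nonneg z.e_pos.le ((kk.mb.s0 j).2 p u v))))
  refine ⟨ξ', t.filter (ξ' · ≠ 0), ⟨a0, fun P k => h.sup P (a4 P k), fun φ u φ0 => ?_⟩,
    (Finset.card_filter_le _ _).trans (a2.trans ?_), fun P => ?_,
    fun P k m => (a0 P).lt_of_ne' (a5 P (mt (hS P).1 k) m.ne')⟩
  · let H : K → Prop := fun a => a ≠ 0 ∧ ∑ᶠ P, ξ' P * (P.ord a : ℝ) = Q.ord a
    have mul : ∀ a a', H a → H a' → H (a * a') := fun a a' k k' => ⟨mul_ne_zero k.1 k'.1, by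
      simp only [Pl.ord_mul _ k.1 k'.1, Int.cast_add, mul_add]
      rw [finsum_add_distrib (fi ξ' a4 a) (fi ξ' a4 a'), k.2, k'.2]⟩
    have zp : ∀ a (n : ℤ), H a → H (a ^ n) := fun a n k => ⟨zpow_ne_zero _ k.1, by
      simp only [Pl.ord_zpow, Int.cast_mul, mul_left_comm _ (n : ℝ)]
      rw [← mul_finsum, k.2]⟩
    have one : H 1 := ⟨one_ne_zero, by simp⟩
    have hF : ∀ i, H (algebraMap L K (F i)) := fun i => ⟨am (F0 i).1, a7 i⟩
    let E := (kk.mb.fin φ).toFinset.filter (· ∉ b.S)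
    have hE : ∀ p, p ∈ E ↔ (p ∈ b.T ∧ p.ord φ ≠ 0) ∧ p ∉ b.S := fun p => by simp [E]
    let G := ∏ p ∈ E, b.lam p ^ p.ord φ
    have G0 : G ≠ 0 := Finset.prod_ne_zero_iff.2 fun p _ => zpow_ne_zero _ (kk.ok.l0 p)
    have u1 : U (φ / G) := ⟨div_ne_zero φ0 G0, fun p a n => by
      rw [Pl.ord_div _ φ0 G0, p.ord_prod _ fun p _ => zpow_ne_zero _ (kk.ok.l0 p),
        Finset.sum_congr rfl fun p' m => by rw [Pl.ord_zpow, lm p' ((hE p').1 m).1.1 p a n]]
      simp only [mul_ite, mul_one, mul_zero, Finset.sum_ite_eq, hE]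
      split_ifs with z
      · exact sub_self _
      · rw [sub_zero]
        exact by_contra fun q => z ⟨⟨a, q⟩, n⟩⟩
    have : H (hm y φ u) := by
      rw [hm, ← div_mul_cancel₀ φ G0, map_mul]
      refine mul _ _ (mul _ _ ?_ ?_) (Finset.prod_induction _ H mul one fun j _ => zp _ _ ⟨y0 j, ?_⟩)
      · simpa only [F, Sum.elim_inr, if_pos u1] using hF (.inr (φ / G))
      · rw [map_prod]
        refine Finset.prod_induction _ H mul one fun p m => ?_
        rw [map_zpow₀]
        refine zp _ _ ?_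
        simpa only [F, Sum.elim_inl, if_pos (And.intro ((hE p).1 m).1.1 ((hE p).1 m).2)]
          using hF (.inl p)
      · have e := h.eq 1 (Pi.single j 1) one_ne_zero
        rw [hm, map_one, one_mul, show To.mon y (Pi.single j 1) = y j by
          rw [To.mon, Finset.prod_eq_single j (fun i _ k => by simp [k]) (by simp)]; simp] at e
        exact (a6 (.inl j)).trans e
    exact this.2
  · have := Finset.card_image_le (s := Δ) (f := f)
    simp only [Fintype.card_sum, Fintype.card_fin]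
    omega
  · rw [Finset.mem_filter, ← hS]
    exact ⟨fun k => ⟨a1 k.1, k.2⟩, fun k => ⟨a3 P k.1 k.2, k.2⟩⟩

end Vale.Agent.P283R.Ck
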