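import Vale.Agent.P283R.Cq.Hlr62

/-!
# P283R, block CK: integer Helly for sections
-/

open Set

noncomputable section

namespace Vale.Agent.P283R.Ck.H62

open Vale.Agent.P287D Vale.Agent.P283M Cx Cy
open Vale.Agent.P283R.To (mon)
open Wc (Sec)

variable {K : Type} [Field K] [Algebra ℂ K] {A B : Type} [Fintype A] [Fintype B]

/-- a monomial section for every small family of kept primes gives a section -/
theorem sec {z : A → K} {σ : B → K} (z0 : ∀ a, z a ≠ 0) (s0 : ∀ j, σ j ≠ 0) {T Kp : Set (Pl K)}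
    (fin : Kp.Finite) {κ cz : Pl K → ℤ} {g : K} (g0 : g ≠ 0) {q m : ℕ} {Q : Pl K}
    (out : ∀ P ∈ T, P ∉ Kp → κ P = 0 ∧ (∀ a, P.ord (z a) = 0) ∧ ∀ j, 0 ≤ P.ord (σ j))
    (sub : ∀ t : Finset (Pl K), ↑t ⊆ Kp → t.card ≤ 2 ^ (Fintype.card A + Fintype.card B) →
      ∃ (l : A → ℤ) (w : B → ℕ), (∀ P ∈ t, m * κ P ≤ P.ord (mon z l * mon σ fun j => w j)) ∧
        Q.ord (g ^ m * (mon z l * mon σ fun j => w j)) < q * m * (cz Q + 1)) :
    Sec q m cz T g κ Q := by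
  have om : ∀ (P : Pl K) l (w : B → ℕ), P.ord (mon z l * mon σ fun j => w j) =
      ∑ a, l a * P.ord (z a) + ∑ j, w j * P.ord (σ j) := fun P l w => by
    rw [P.ord_mul (To.mon_ne z0 l) (To.mon_ne s0 _), To.ord_mon P z0, To.ord_mon P s0]
  obtain ⟨l, w, h1, h2⟩ := Wc.H62.helN fin.toFinset (fun P a => P.ord (z a))
    (fun P j => P.ord (σ j)) (fun P => m * κ P) (fun a => Q.ord (z a)) (fun j => Q.ord (σ j))
    (q * m * (cz Q + 1) - Q.ord (g ^ m)) fun t ht hc => by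
      obtain ⟨l, w, k1, k2⟩ := sub t (fun P hP => fin.mem_toFinset.1 (ht hP)) hc
      refine ⟨l, w, fun P hP => om P l w ▸ k1 P hP, ?_⟩
      rw [Q.ord_mul (pow_ne_zero _ g0) (mul_ne_zero (To.mon_ne z0 _) (To.mon_ne s0 _)), om] at k2
      linarith
  refine ⟨_, mul_ne_zero (To.mon_ne z0 l) (To.mon_ne s0 fun j => w j), fun P hP => ?_, ?_⟩
  · rw [om]
    by_cases k : P ∈ Kp
    · exact h1 P (fin.mem_toFinset.2 k)
    · obtain ⟨k1, k2, k3⟩ := out P hP k
      simp only [k1, k2, mul_zero, Finset.sum_const_zero, zero_add]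
      exact Finset.sum_nonneg fun j _ => mul_nonneg (Int.natCast_nonneg _) (k3 j)
  · rw [Q.ord_mul (pow_ne_zero _ g0) (mul_ne_zero (To.mon_ne z0 _) (To.mon_ne s0 _)), om]
    linarith

end Vale.Agent.P283R.Ck.H62
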