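import Vale.Agent.P283R.Ck.St

/-!
# P283R, block CK: the reduction to the wide state
-/

open Set

noncomputable section

namespace Vale.Agent.P283R.Ck

open Vale.Agent.P287D Vale.Agent.P283M Cx Cy Cq
open Vale.Agent.P283R.To (mon)

namespace P25

variable {L K : Type} [Field L] [Algebra ℂ L] [Field K] [Algebra ℂ K] [Algebra L K] {c ρ l l' : ℕ}

theorem ok_mono {b : Ba L c} (h : b.Ok l) (le : l ≤ l') : b.Ok l' :=
  ⟨h.ff, h.fr, h.cox, h.can, h.l0, h.lam, h.sup, h.bN.trans le, h.bS.trans le⟩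

theorem pk_mono {b : Ba L c} {y : Fin ρ → K} {T : Set (Pl K)} {d q : ℕ} {ε : ℝ} {g : K}
    {κ : Pl K → ℤ} (h : Pk l d q ε b y T g κ) (le : l ≤ l') : Pk l' d q ε b y T g κ :=
  ⟨ok_mono h.ok le, h.dim, h.fm, h.g0, h.reg, h.fin, h.eff, h.hw, h.av⟩

theorem cz_eq {b b' : Ba L c} {s : Fin l → L} {Δ : Finset (Pl L)} (h : Rs b b' s Δ)
    (y : Fin ρ → K) : cz b' y = cz b y := funext fun P => by rw [cz, cz, h.hs, h.hh]

end P25

open P25 in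
/-- **PQS** -/
theorem pqs25 : PQS := by
  classical
  intro rs0 res crk wik l d q ε hq hε
  obtain ⟨C₀, hC₀⟩ := pgr67 cz60 (gpr36 cz60) (cnr68 cz60) (10 * l + d) d q hq
  choose W m m2 hW using fun j : ℕ => wik (j + d + l) q ε hq hε
  obtain ⟨C, hC⟩ := spr25 bas90 W d C₀
  have mp : ∀ j, 0 < m j := fun j => lt_of_lt_of_le two_pos (m2 j)
  refine ⟨∏ j ∈ Finset.range (C + 1), m j, (m2 0).trans (Nat.le_of_dvd
    (Finset.prod_pos fun j _ => mp j) (Finset.dvd_prod_of_mem _ (by simp))), ?_⟩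
  intro L K _ _ _ _ _ _ c ρ b y T s n g κ Q kk pk ov
  obtain ⟨G, I, rfl, o⟩ := orr24 cz60 L K c ρ b y T n d q ε g κ pk
  obtain ⟨X, χ, ξ, Xf, XK, χ0, χT, χX, χQ, rep, pos⟩ :=
    gt85 L K c ρ b y T n G κ I Q pk.ok pk.fm o ov
  have pk1 := drp47 L K c ρ b y T n d q ε _ κ X pk Xf fun P h => (XK h).2.1
  have o1 : Or b y (T \ X) G κ I := ⟨fun p hb hp => by
      obtain ⟨P, a, b⟩ := o.ex p hb hp
      exact ⟨P, ⟨a, fun h => (XK h).2.2 p hp b⟩, b⟩,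
    ⟨o.od.co, fun P h => o.od.od P h.1⟩, fun P h => o.y0 P h.1, fun P h => o.g0 P h.1, o.s0⟩
  generalize hT : T \ X = T₁ at pk1 o1 rep pos
  obtain ⟨ξ', t, rep', ct, ht, hp'⟩ := crk L K c ρ b y T₁ l s Q ξ kk pk1.fm rep
  let Y := Kt y T₁ b.S \ ↑t
  have pk2 := drp47 L K c ρ b y T₁ n d q ε _ κ Y pk1
    ((car13 L K c ρ b y T₁ b.S pk1.fm).1.subset sdiff_subset) fun P h => h.1.2.1
  let Δ := b.S.filter fun p => ∃ P ∈ t, At P p
  have cΔ : Δ.card ≤ t.card := by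
    have : ∀ p, ∃ P : Option (Pl K), p ∈ Δ → ∃ P', P = some P' ∧ P' ∈ t ∧ At P' p := fun p => by
      by_cases h : p ∈ Δ
      · obtain ⟨P, a, b⟩ := (Finset.mem_filter.1 h).2
        exact ⟨some P, fun _ => ⟨P, rfl, a, b⟩⟩
      · exact ⟨none, fun a => (h a).elim⟩
    choose R hR using this
    rw [← Finset.card_map (s := t) ⟨some, Option.some_injective _⟩]
    refine Finset.card_le_card_of_injOn R (fun p hp => ?_) fun p hp p' hp' e => ?_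
    · obtain ⟨P, a, b, -⟩ := hR p hp
      exact Finset.mem_coe.2 (Finset.mem_map.2 ⟨P, b, a.symm⟩)
    · obtain ⟨P, a, -, b⟩ := hR p hp
      obtain ⟨P', a', -, b'⟩ := hR p' hp'
      obtain rfl : P = P' := Option.some_injective _ (a.symm.trans (e.trans a'))
      exact b.uniq b'
  obtain ⟨b', rs⟩ := rs0 L c l b s Δ kk (Finset.filter_subset _ _)
  have inΔ : ∀ P ∈ T₁ \ Y, ∀ p ∈ b.S, At P p → p ∈ Δ := fun P hP p hp a =>
    Finset.mem_filter.2 ⟨hp, P, by_contra fun h => hP.2 ⟨⟨hP.1, not_hz96 y a,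
      fun p' hp' a' => hp' (a.uniq a' ▸ hp)⟩, h⟩, a⟩
  have off : ∀ P ∈ T₁, ∀ p ∉ b.S, At P p → P ∈ T₁ \ Y := fun P hP p hp a =>
    ⟨hP, fun h => h.1.2.2 p hp a⟩
  have hd := pk.dim
  have pk3 := pk_mono (res L K c ρ b y _ l s Δ b' n d q ε _ κ rs pk2 inΔ).1
    (show _ ≤ 10 * l + d by omega)
  have SI := o.od.co
  have ΔI : b'.S ⊆ I := rs.hS ▸ (Finset.filter_subset _ _).trans SI
  have bT : ∀ p ∈ b'.T, p ∈ b.T := fun p h => (rs.hT ▸ h : p ∈ b.T \ _).1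
  have o2 : Or b' y (T₁ \ Y) G κ I := ⟨fun p hb hp => by
      obtain ⟨P, a, e⟩ := o1.ex p (bT p hb) hp
      exact ⟨P, off P a p (fun h => hp (SI h)) e, e⟩,
    ⟨ΔI, fun P h => by rw [cz_eq rs]; exact o1.od.od P h.1⟩, fun P h => o1.y0 P h.1,
    fun P h => o1.g0 P h.1, fun j p hb hp => by
      rcases rs.sg j with e | ⟨i, e⟩
      · rw [e, P297Z.Pl.ord_one]
      · obtain ⟨j', e'⟩ := kk.sg i
        rw [← e, ← e']
        exact o1.s0 j' p (bT p hb) hp⟩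
  have rep2 : Rep L y (T₁ \ Y) Q ξ' := ⟨rep'.nn, fun P h => ⟨⟨(rep'.sup P h).1,
    fun k => k.2 ((ht P).2 ⟨k.1, h⟩)⟩, (rep'.sup P h).2⟩, rep'.eq⟩
  obtain ⟨u₀, J₀, G0, cJ₀, od₀⟩ := hC₀ L K c ρ b' y (T₁ \ Y) ε G κ I Q ξ' hε pk3 o2 rep2
    fun P h => by
      by_cases k : P ∈ Kt y T₁ b.S
      · exact (rep'.nn P).lt_of_ne' ((ht P).1 (by_contra fun a => h.1.2 ⟨k, a⟩)).2
      · exact hp' P k (pos P ⟨h.1.1, h.2⟩)
  obtain ⟨G', G'0, pk4, back⟩ := nrm40 L K c ρ b y T₁ n d q ε G κ u₀ pk1 G0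
  obtain ⟨J, r, ρ', y', u, sub, cJ, eq', un1, un2, wi⟩ :=
    hC L K c ρ b' y (T₁ \ Y) _ _ I J₀ pk.dim pk3.ok pk3.fm cJ₀ od₀ ΔI o2.y0
  have eq : Eqf b y (Fin.append y' u) := ⟨eq'.1, eq'.2.1, fun P => by
    rw [← cz_eq rs, ← cz_eq rs]
    exact eq'.2.2.1 P, eq'.2.2.2⟩
  obtain ⟨e1, -, -, e4⟩ := eqf78 L K c ρ b y T₁ _ _ eq
  obtain ⟨f1, f2, f3, -⟩ := eqf78 L K c ρ b' y (T₁ \ Y) _ _ eq'
  obtain ⟨G'', G''0, et⟩ := e4 G' G'0
  have pk5 := e1 _ _ _ _ _ _ pk4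
  have hd' : c + r + ρ' = d := by
    have := pk5.dim
    omega
  have od := f3 _ _ od₀
  have ΔJ : ∀ P ∈ T₁ \ Y, ∀ p ∉ J, At P p → p ∉ b.S := fun P hP p hp a h =>
    hp (sub (od₀.co (rs.hS ▸ inΔ P hP p h a)))
  obtain ⟨ξ₂, t₂, rep3, ct₂, -, ht₂, hξ₂⟩ := (car13 L K c _ b' (Fin.append y' u) (T₁ \ Y) J
    (f1 _ _ _ _ _ _ pk3).fm).2.2 Q ξ' (f2 _ _ rep2)
  have nm : ∀ p, p ∉ J ∪ b.S → p ∉ J ∧ p ∉ b.S := fun p h => by
    simpa only [Finset.mem_union, not_or] using h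
  have h := hW J.card L K c r ρ' b y' u T₁ l s n G'' _ Q ξ₂ I J t₂ kk (by omega) (by omega)
    (by omega) (by omega)
    ⟨by rw [hd', et]; exact pk5, G''0,
      ⟨rep3.nn, fun P h => ⟨(rep3.sup P h).1.1, (rep3.sup P h).2⟩, rep3.eq⟩,
      fun P hP p hp k a => by
        rw [hξ₂ P fun h => h.2.2 p (nm p k).1 a]
        exact hp' P (fun h => h.2.2 p (nm p k).2 a)
          (pos P ⟨hP, not_hz96 y a, fun p' hp' a' => hp' (a.uniq a' ▸ hp)⟩),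
      ⟨Finset.subset_union_right, fun P hP p k a => by
        rw [← cz_eq rs]
        exact od.od P (off P hP p (nm p k).2 a) p (fun h => (nm p k).1 (sub h)) a⟩,
      fun P hP p k a => un1 P (off P hP p (nm p k).2 a) p (nm p k).1 a,
      fun P hP p k a => un2 P (off P hP p (fun h => k (SI h)) a) p k a,
      fun ν ν0 => (wi ν ν0).trans (ncard_le_ncard
        (fun p ⟨a1, a2, P, hP, P', hP', a, a', e⟩ => ⟨a1, fun k => (Finset.mem_union.1 k).elim a2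
          (ΔJ P hP p a2 a), P, hP.1, P', hP'.1, a, a', e⟩)
        (I.finite_toSet.subset fun p k => k.1))⟩
    fun P hP z => ht₂ P ⟨(rep3.sup P z).1, hP.2.1, fun p hp a => hP.2.2 p (fun k =>
      (Finset.mem_union.1 k).elim hp (ΔJ P (rep3.sup P z).1 p hp a)) a⟩ z
  rw [et, funext eq.2.2.1] at h
  obtain ⟨m', hm'⟩ : m J.card ∣ ∏ j ∈ Finset.range (C + 1), m j :=
    Finset.dvd_prod_of_mem _ (by simpa using Nat.lt_succ_of_le cJ)
  have m'0 : 0 < m' := Nat.pos_of_ne_zero fun z =>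
    (Finset.prod_pos fun j _ => mp j).ne' (hm'.trans (by rw [z, mul_zero]))
  rw [hm']
  subst hT
  exact (Wc.rpr65 K q _ _ T _ κ Q pk.g0).1 X χ Xf χ0 χT χX χQ
    ((Wc.rpr65 K q _ _ (T \ X) _ κ Q pk.g0).2 m' m'0 (back _ _ _ h))

end Vale.Agent.P283R.Ck
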