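import Vale.Agent.P283R.Ck.St

/-!
# P283R, block CK: the rows WTS, RSR, RES
-/

open Set

noncomputable section

namespace Vale.Agent.P283R.Ck

open Vale.Agent.P287D Vale.Agent.P283M Cx Cy Cq

theorem wts31 : WTS := by
  intro pq l n q ε q0 e0
  obtain ⟨m, m2, H⟩ := pq l (n + 1) q ε q0 e0
  refine ⟨q * m, Nat.mul_pos q0 (by omega), ?_⟩
  intro L K _ _ _ _ _ _ c ρ u Λ Γ Γ' b y s kk hn a fm hi lc nf
  obtain ⟨g, κ, lk, pk⟩ := cdr42 cz60 (Wc.avr95 Wc.cox36 Wc.loc24) n K u Λ Γ Γ' a L _ q c ρ ε b y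
    q0 e0 kk.ok hn fm hi lc nf
  exact Wc.bkr64 Wc.cox36 n K u Λ Γ Γ' a q m _ g κ q0 m2 lk fun Q o =>
    H L K c ρ b y _ s _ g κ Q kk pk fun x x0 hx => Wc.ovq22 n K u Λ Γ Γ' a Q x o x0 hx

theorem rsr31 : RSR := by
  intro bld L _ _ c l b s Δ kk sub
  have i1 : ∀ p ∈ b.T \ (↑b.S \ ↑Δ), p ∉ Δ → p ∉ b.S := fun p a n z => a.2 ⟨z, n⟩
  have i2 : ∀ p ∈ b.T, p ∉ b.S → p ∈ b.T \ (↑b.S \ ↑Δ) := fun p a n => ⟨a, fun z => n z.1⟩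
  have mb : Mb c (b.T \ (↑b.S \ ↑Δ)) Δ s :=
    ⟨kk.mb.ff, fun p hp => ⟨kk.mb.sub (sub hp), fun z => z.2 hp⟩,
      fun φ => (kk.mb.fin φ).subset fun p hp => ⟨hp.1.1, hp.2⟩, fun G hG => by
        obtain ⟨g, g0, h⟩ := kk.mb.pri G ((hG.union b.S.finite_toSet).subset fun p hp =>
          (em (p ∈ b.S)).symm.imp (fun n => ⟨i2 p hp.1 n, hp.2⟩) id)
        exact ⟨g, g0, fun p a n => h p a.1 (i1 p a n)⟩,
      fun j => ⟨(kk.mb.s0 j).1, fun p a n => (kk.mb.s0 j).2 p a.1 (i1 p a n)⟩, fun g hg =>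
        Submodule.span_mono (fun x hx => And.intro hx.1 fun p hp => hx.2 p (sub hp))
          (kk.mb.mono g fun p a n => hg p (i2 p a n) fun z => n (sub z))⟩
  obtain ⟨b', a1, a2, a3, a4, a5, a6, a7, -⟩ := bld L c l _ Δ s b.s b.h b.lam mb kk.ok.fr
    kk.ok.can.1 (fun p a n => by
      have := kk.ok.can.2 p a.1
      rwa [kk.ok.sup p a.1 (i1 p a n), dotProduct_zero, Int.cast_zero, add_zero] at this)
    kk.ok.l0 (fun p hp => kk.one p (sub hp)) fun p a _ p' a' n' => by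
      have := kk.ok.lam p a.1 p' a'.1
      rwa [kk.ok.sup p' a'.1 (i1 p' a' n'), dotProduct_zero, add_zero] at this
  exact ⟨b', a1, a2, a3, a4, a5, a6, a7⟩

theorem res31 : RES := by
  intro L K _ _ _ _ _ _ c ρ b y T l s Δ b' n d q ε g κ rs pk h
  have e : cz b' y = cz b y := funext fun P => by rw [cz, cz, rs.hs, rs.hh]
  have f := pk.fm
  refine ⟨⟨rs.ok, pk.dim, ⟨f.ext, f.fin, e ▸ f.finc, f.inv, f.lau, f.eqn, e ▸ f.kt,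
    f.mis.subset fun p hp => ⟨(rs.hT ▸ hp.1 : p ∈ b.T \ _).1, hp.2⟩,
    fun P hP => (f.pg P hP).imp_right fun ⟨p, hp, z⟩ => ⟨p, ?_, z⟩⟩, pk.g0, pk.reg, pk.fin,
    e ▸ pk.eff, fun Q ξ r => e ▸ pk.hw Q ξ r, e ▸ pk.av⟩, e⟩
  rw [rs.hT]
  exact ⟨hp, fun a => a.2 (h P hP p a.1 z)⟩

end Vale.Agent.P283R.Ck
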