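import Vale.Agent.P283R.Ck.Pln56
import Vale.Agent.P283R.Ck.Bld40
import Vale.Agent.P283R.Ck.Wts31
import Vale.Agent.P283R.Ck.Crk13
import Vale.Agent.P283R.Ck.Hlk62
import Vale.Agent.P283R.Ck.Pqs25
import Vale.Agent.P283R.Ck.Bsr20
import Vale.Agent.P283R.Ck.Ons90
import Vale.Agent.P283R.Sl.Un3

/-!
# P283R, block CK: torus actions over a planar base
-/

namespace Vale.Agent.P283R

/-- the theorem on the tier -/
theorem Ck.wtk : Ck.WTK := Ck.wts31 (Ck.pqs25 (Ck.rsr31 Ck.bld40) Ck.res31 Ck.crk13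
  (Ck.hlk62 (Ck.rsr31 Ck.bld40) Ck.res31))

/-- bounded klt complements over a planar base -/
theorem Sl.on_ck : Ck.ONK := Ck.ons90 (Ck.bsr20 Ck.pln56 Ck.bld40) Ck.wtk

open Sl.Var in
/-- the same in the short form -/
theorem Sl.onN_ck (M : ℕ → ℕ) :
    Sl.OnN fun d _ _ f _ _ z => ∃ V, z.In V ∧ Sl.PlanarQuot (M d) (pre f V) :=
  Sl.on_ck M

end Vale.Agent.P283R
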