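import Vale.Agent.P283R.Cq.Car13
import Vale.Agent.P283R.Cq.Cnr68
import Vale.Agent.P283R.Cq.Gta68
import Vale.Agent.P283R.Cq.Hlr62
import Vale.Agent.P283R.Tb.Abs13

/-!
# P283R, block CK: Caratheodory with rescaled masses
-/

open Set

noncomputable section

namespace Vale.Agent.P283R.Ck.C68

open Vale.Agent.P287D Vale.Agent.P283M Vale.Agent.P297Z Cx Cy Cq
open Wc (Dr)
open Vale.Agent.P283R.To (mon)

variable {L K : Type} [Field L] [Algebra ℂ L] [Field K] [Algebra ℂ K] [Algebra L K]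
  {c ρ k l N : ℕ} {y : Fin ρ → K} {T : Set (Pl K)}

theorem dr_self {e : Fin k → Pl L} (he : Function.Injective e) (δ : Fin k → ℤ) (i : Fin k) :
    δ ⬝ᵥ Dr e (e i) = δ i := by
  simp [Dr, dotProduct, he.eq_iff]

theorem dr_off {e : Fin k → Pl L} (δ : Fin k → ℤ) {p : Pl L} (h : p ∉ range e) :
    δ ⬝ᵥ Dr e p = 0 :=
  Finset.sum_eq_zero fun i _ => by rw [Dr, if_neg fun z => h ⟨i, z.symm⟩, mul_zero]

open Classical in
/-- the degrees of the generators, seen from a prime -/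
def wt (e : Fin k → Pl L) (a : Fin l → Fin k → ℤ) (P : Pl K) (x : Fin l) : ℤ :=
  ∑ i, (if At P (e i) then mu P (e i) else 0) * a x i

theorem wt_at {e : Fin k → Pl L} (he : Function.Injective e) (a : Fin l → Fin k → ℤ) {P : Pl K}
    {i : Fin k} (h : At P (e i)) (x : Fin l) : wt e a P x = mu P (e i) * a x i := by
  rw [wt, Finset.sum_eq_single i (fun j _ z => by
    rw [if_neg fun d => z (he (d.uniq h)), zero_mul]) (by simp), if_pos h]

theorem wt_not {e : Fin k → Pl L} (a : Fin l → Fin k → ℤ) {P : Pl K} (h : ∀ i, ¬ At P (e i))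
    (x : Fin l) : wt e a P x = 0 :=
  Finset.sum_eq_zero fun i _ => by rw [if_neg (h i), zero_mul]

theorem fs_lin (fin : ∀ a : K, {P | P ∈ T ∧ P.ord a ≠ 0}.Finite) {θ : Pl K → ℝ}
    (hθ : ∀ P, θ P ≠ 0 → P ∈ T) {α : Type} (F : Finset α) (z : α → K) (n : α → ℤ) {x x' : K}
    (h : ∀ P : Pl K, P.ord x = P.ord x' + ∑ a ∈ F, n a * P.ord (z a)) :
    ∑ᶠ P, θ P * P.ord x = ∑ᶠ P, θ P * P.ord x' + ∑ a ∈ F, n a * ∑ᶠ P, θ P * P.ord (z a) := by
  have fi : ∀ (a : ℝ) (x : K), (Function.support fun P => a * θ P * (P.ord x : ℝ)).Finite :=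
    fun a x => N68.ff (fun P z => hθ P (right_ne_zero_of_mul z)) (fin x)
  simp only [← Pq.fs_mul _ _ fun P : Pl K => P.ord _]
  rw [← finsum_sum_comm _ _ fun j _ => fi _ _, ← finsum_add_distrib (N68.ff hθ (fin _))]
  · refine finsum_congr fun P => ?_
    rw [h P]
    push_cast
    simp only [mul_add, Finset.mul_sum]
    exact congrArg _ (Finset.sum_congr rfl fun _ _ => by ring)
  · exact ((F.finite_toSet.biUnion fun j _ => fi (n j) (z j))).subset (Finset.support_sum _ _)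

variable [IsScalarTower ℂ L K]

theorem ex_mon {σ : Fin N → L} {α : Fin N → Fin k → ℤ} {δ : Fin k → ℤ} {φ : L} (h : φ ∈ Sp σ α δ)
    (φ0 : φ ≠ 0) (R : Pl K) : ∃ n, dg α n = δ ∧
      R.ord (algebraMap L K (∏ j, σ j ^ n j)) ≤ R.ord (algebraMap L K φ) := by
  obtain ⟨_, ⟨_, ⟨n, hn, rfl⟩, rfl⟩, -, z⟩ := Cq.G68.ex_span R
    (Submodule.apply_mem_span_image_of_mem_span (IsScalarTower.toAlgHom ℂ L K).toLinearMap h)
    ((map_ne_zero (algebraMap L K)).2 φ0)
  exact ⟨n, hn, z⟩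

open Classical in
/-- **Caratheodory** -/
theorem car2 {b : Ba L c} (ok : b.Ok N) (X : Fm b y T) {e : Fin b.k → Pl L}
    (he : Function.Injective e) (hD : ∀ p ∈ b.T, b.D p = Dr e p) {s : Fin l → L}
    {a : Fin l → Fin b.k → ℤ} (x : Cox b.T (Dr e) (Fin.append (fun _ : Fin b.k => (1 : L)) s)
      (Fin.append (fun i => Pi.single i 1) a)) (J : Finset (Pl L)) (hJ : ∀ i, e i ∈ J) {Q : Pl K}
    {ξ : Pl K → ℝ} (r : Rep L y T Q ξ) (A₀ : Finset (Fin b.k))
    (hA : ∀ i ∈ A₀, ∃ P, ξ P ≠ 0 ∧ At P (e i))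
    (gen : ∀ m : Fin l → ℤ, (∀ i ∈ A₀, 0 ≤ ∑ x, m x * a x i) → ∀ i, (∃ P, ξ P ≠ 0 ∧ At P (e i)) →
      0 ≤ ∑ x, m x * a x i) :
    ∃ (ξ' : Pl K → ℝ) (t : Finset (Pl K)), Rep L y T Q ξ' ∧ ↑t ⊆ Kt y T J ∧
      t.card ≤ A₀.card + (ρ + (l + (J \ Finset.univ.image e).card)) ∧
      (∀ P ∈ Kt y T J, ξ' P ≠ 0 → P ∈ t) ∧ (∀ P, ξ' P ≠ 0 → ξ P ≠ 0) ∧
      ∀ P ∉ Kt y T J, ξ P ≠ 0 → ξ' P ≠ 0 := by
  have kf := (car13 L K c ρ b y T J X).1
  obtain ⟨S, hS⟩ : ∃ S : Finset (Pl K), ∀ P, P ∈ S ↔ P ∈ Kt y T J :=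
    ⟨kf.toFinset, fun _ => kf.mem_toFinset⟩
  have ξT : ∀ P, ξ P ≠ 0 → P ∈ T := fun P z => (r.sup P z).1
  have req : ∀ φ : L, φ ≠ 0 → ∑ᶠ P, ξ P * P.ord (algebraMap L K φ) = Q.ord (algebraMap L K φ) :=
    fun φ h => by simpa [hm, mon] using r.eq φ 0 h
  have mem : ∀ P ∈ T, ∀ p : Pl L, At P p → p ∈ b.T := fun P hP p z => by
    obtain t | ⟨p', h, t⟩ := X.pg P hP
    · exact (z.not_trv t).elim
    · exact t.uniq z ▸ h
  have out : ∀ P ∉ S, ξ P ≠ 0 → ∃ p, p ∈ b.T ∧ p ∉ J ∧ At P p := fun P h z => by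
    by_contra d
    exact h ((hS P).2 ⟨ξT P z, (r.sup P z).2, fun p u v => d ⟨p, mem P (ξT P z) p v, u, v⟩⟩)
  have nr : ∀ p ∉ J, p ∉ range e := fun p h ⟨i, z⟩ => h (z ▸ hJ i)
  have lo : ∀ p ∈ b.T, ∀ p' ∈ b.T, p' ∉ range e → p'.ord (b.lam p) = if p' = p then 1 else 0 :=
    fun p h p' h' z => by
      have := ok.lam p h p' h'
      rwa [hD p' h', dr_off _ z, add_zero] at this
  choose pr p1 p2 using hA
  let I : Finset (Pl K) := A₀.attach.image fun i => pr i.1 i.2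
  have hI : ∀ P ∈ I, ∃ i, ∃ h : i ∈ A₀, pr i h = P := fun P h => by
    obtain ⟨i, -, z⟩ := Finset.mem_image.1 h
    exact ⟨i.1, i.2, z⟩
  have IS : I ⊆ S := fun P h => by
    obtain ⟨i, hi, rfl⟩ := hI P h
    exact by_contra fun z => by
      obtain ⟨p, -, u, v⟩ := out _ z (p1 i hi)
      exact u (v.uniq (p2 i hi) ▸ hJ i)
  let u : (Fin (b.k + l) → ℕ) → Pl K → ℤ := fun n P => -∑ x, n (Fin.natAdd _ x) * wt e a P x
  have u0 : ∀ n P, (∀ i, ¬ At P (e i)) → u n P = 0 := fun n P h => by simp [u, wt_not a h]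
  have u1 : ∀ n P i, At P (e i) → u n P = -(mu P (e i) * ∑ x, n (Fin.natAdd _ x) * a x i) :=
    fun n P i h => by
      simp only [u, wt_at he a h, Finset.mul_sum]
      exact congrArg _ (Finset.sum_congr rfl fun _ _ => by ring)
  have s0 : ∀ x', s x' ≠ 0 := fun x' => by simpa using x.ne (Fin.natAdd _ x')
  have sr : ∀ x', ∀ p ∈ b.T, 0 ≤ p.ord (s x') + a x' ⬝ᵥ Dr e p := fun x' => by
    simpa using (x.sec _ _ (x.ne (Fin.natAdd _ x'))).1 (H62.sp_gen _ _ _)
  have om : ∀ (n : Fin (b.k + l) → ℕ) (p : Pl L), p.ord (∏ j, Fin.append (fun _ : Fin b.k =>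
      (1 : L)) s j ^ n j) = ∑ x, n (Fin.natAdd _ x) * p.ord (s x) := fun n p => by
    rw [Fin.prod_univ_add]
    simp only [Fin.append_left, Fin.append_right, one_pow, Finset.prod_const_one, one_mul]
    rw [Pl.ord_prod _ _ fun j _ => pow_ne_zero _ (s0 j)]
    simp only [Pl.ord_pow]
  have low : ∀ n, ∀ P ∈ T, u n P ≤ P.ord (algebraMap L K (∏ j, Fin.append (fun _ : Fin b.k =>
      (1 : L)) s j ^ n j)) := fun n P hP => by
    obtain t | ⟨p, h, t⟩ := X.pg P hP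
    · rw [t.ord, u0 n P fun i z => z.not_trv t]
    rw [t.ord, om]
    by_cases z : p ∈ range e
    · obtain ⟨i, rfl⟩ := z
      rw [u1 n P i t, ← mul_neg, ← Finset.sum_neg_distrib]
      refine mul_le_mul_of_nonneg_left (Finset.sum_le_sum fun x' _ => ?_) t.e_pos.le
      have := sr x' _ h
      rw [dr_self he] at this
      rw [← mul_neg]
      exact mul_le_mul_of_nonneg_left (by omega) (Int.natCast_nonneg _)
    · rw [u0 n P fun i d => z ⟨i, d.uniq t⟩]
      refine mul_nonneg t.e_pos.le (Finset.sum_nonneg fun x' _ =>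
        mul_nonneg (Int.natCast_nonneg _) ?_)
      simpa only [dr_off _ z, add_zero] using sr x' _ h
  have dic : ∀ φ : L, φ ≠ 0 → (∀ p ∈ b.T, p ∉ range e → 0 ≤ p.ord φ) →
      (∀ p ∈ b.T, p ∈ J → p ∉ range e → p.ord φ = 0) → ∀ ζ : Pl K → ℝ, 0 ≤ ζ →
      (∀ P ∈ I, ζ P = ξ P) → (∀ P, ζ P ≠ 0 → ξ P ≠ 0) →
      (∀ x', ∑ P ∈ S, ζ P * wt e a P x' = ∑ P ∈ S, ξ P * wt e a P x') →
      ∑ P ∈ S, ζ P * P.ord (algebraMap L K φ) ≤ Q.ord (algebraMap L K φ) ∧
        (∑ P ∈ S, ζ P * P.ord (algebraMap L K φ) = Q.ord (algebraMap L K φ) ↔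
          ∑ P ∈ S, ξ P * P.ord (algebraMap L K φ) = Q.ord (algebraMap L K φ)) :=
    fun φ φ0 h1 h2 ζ ζ0 z1 z2 z3 => by
      have sp := (x.sec (fun i => -(e i).ord φ) φ φ0).2 fun p hp => by
        by_cases z : p ∈ range e
        · obtain ⟨i, rfl⟩ := z
          rw [dr_self he, add_neg_cancel]
        · rw [dr_off _ z, add_zero]
          exact h1 p hp z
      have up : ∀ P ∈ S, ∀ n, dg (Fin.append (fun i => Pi.single i 1) a) n =
          (fun i => -(e i).ord φ) → P.ord (algebraMap L K φ) ≤ u n P := fun P hP n hn => by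
        obtain t | ⟨p, h, t⟩ := X.pg P ((hS P).1 hP).1
        · rw [t.ord, u0 n P fun i z => z.not_trv t]
        rw [t.ord]
        by_cases z : p ∈ range e
        · obtain ⟨i, rfl⟩ := z
          rw [u1 n P i t, ← mul_neg]
          refine mul_le_mul_of_nonneg_left ?_ t.e_pos.le
          have := congrFun hn i
          simp only [dg, Fin.sum_univ_add, Fin.append_left, Fin.append_right, Pi.single_apply,
            mul_ite, mul_one, mul_zero, Finset.sum_ite_eq, Finset.mem_univ, if_true] at this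
          omega
        · rw [u0 n P fun i d => z ⟨i, d.uniq t⟩,
            h2 p h (by_contra fun d => ((hS P).1 hP).2.2 p d t) z, mul_zero]
      obtain ⟨n₀, a0, a1⟩ := ex_mon sp φ0 Q
      refine Tb.C13.dic S I r.nn ζ0 IS (fun P h => ?_) z2
        {n | dg (Fin.append (fun i => Pi.single i 1) a) n = fun i => -(e i).ord φ}
        (fun n P => u n P) (fun P => P.ord (algebraMap L K φ)) _
        (fun P hP _ => ⟨fun n hn => Int.cast_le.2 (up P hP n hn), ?_⟩)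
        (fun n _ n' _ h P hP z => Int.cast_le.2 ?_) (a := n₀) a0 ?_ ?_
      · obtain ⟨i, hi, rfl⟩ := hI P h
        rw [z1 _ h]
        exact p1 i hi
      · obtain ⟨n, d1, d2⟩ := ex_mon sp φ0 P
        exact ⟨n, d1, Int.cast_inj.2 (le_antisymm (up P hP n d1)
          ((low n P ((hS P).1 hP).1).trans d2))⟩
      · by_cases d : ∃ i, At P (e i)
        · obtain ⟨i, d⟩ := d
          have := gen (fun x => n (Fin.natAdd _ x) - n' (Fin.natAdd _ x)) (fun j hj => by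
            have k := Int.cast_le.1 (h _ (Finset.mem_image.2 ⟨⟨j, hj⟩, Finset.mem_attach _ _, rfl⟩))
            rw [u1 _ _ j (p2 j hj), u1 _ _ j (p2 j hj), neg_le_neg_iff] at k
            simp only [sub_mul, Finset.sum_sub_distrib, sub_nonneg]
            exact le_of_mul_le_mul_left k (p2 j hj).e_pos) i ⟨P, z, d⟩
          simp only [sub_mul, Finset.sum_sub_distrib, sub_nonneg] at this
          rw [u1 _ _ i d, u1 _ _ i d, neg_le_neg_iff]
          exact mul_le_mul_of_nonneg_left this d.e_pos.le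
        · rw [u0 _ _ fun i v => d ⟨i, v⟩, u0 _ _ fun i v => d ⟨i, v⟩]
      · have : ∀ θ : Pl K → ℝ, ∑ P ∈ S, θ P * u n₀ P =
            -∑ x', n₀ (Fin.natAdd _ x') * ∑ P ∈ S, θ P * wt e a P x' := fun θ => by
          simp only [u, Finset.mul_sum]
          rw [Finset.sum_comm, ← Finset.sum_neg_distrib]
          refine Finset.sum_congr rfl fun P _ => ?_
          push_cast
          rw [mul_neg, Finset.mul_sum]
          exact congrArg _ (Finset.sum_congr rfl fun _ _ => by ring)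
        simp only [this, z3]
      · have sb : (Function.support fun P => ξ P * (u n₀ P : ℝ)) ⊆ S := fun P z =>
          by_contra fun d => by
            obtain ⟨p, -, v, w⟩ := out P d (left_ne_zero_of_mul z)
            exact right_ne_zero_of_mul z (Int.cast_eq_zero.2
              (u0 _ _ fun i g => v (g.uniq w ▸ hJ i)))
        rw [← finsum_eq_sum_of_support_subset _ sb]
        refine le_trans ?_ (Int.cast_le.2 a1)
        rw [← req _ (Finset.prod_ne_zero_iff.2 fun j _ => pow_ne_zero _ (x.ne j))]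
        refine finsum_le_finsum' (S.finite_toSet.subset sb) (N68.ff ξT (X.fin _)) fun P => ?_
        by_cases d : ξ P = 0
        · simp [d]
        · exact mul_le_mul_of_nonneg_left (Int.cast_le.2 (low n₀ P (ξT P d))) (r.nn P)
  let U : Type := {φ : L // φ ≠ 0 ∧ ∀ p ∈ b.T, p ∉ range e → p.ord φ = 0}
  let F : Pl L ⊕ U → L := Sum.elim (fun p => if p ∈ b.T ∧ p ∉ J then b.lam p else 1) Subtype.val
  have F0 : ∀ p, F p ≠ 0 := by
    rintro (p | φ)
    · simp only [F, Sum.elim_inl]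
      split_ifs
      exacts [ok.l0 p, one_ne_zero]
    · exact φ.2.1
  have F1 : ∀ p, ∀ p' ∈ b.T, p' ∉ range e → p'.ord (F p) =
      if p' ∉ J ∧ p = .inl p' then 1 else 0 := by
    rintro (p | φ) p' h z
    · simp only [F, Sum.elim_inl, Sum.inl.injEq]
      by_cases d : p ∈ b.T ∧ p ∉ J
      · rw [if_pos d, lo p d.1 p' h z]
        exact if_congr ⟨fun v => ⟨v ▸ d.2, v.symm⟩, fun v => v.2.symm⟩ rfl rfl
      · rw [if_neg d, Pl.ord_one, if_neg fun v : p' ∉ J ∧ p = p' => d ⟨v.2 ▸ h, v.2 ▸ v.1⟩]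
    · simp [F, φ.2.2 p' h z]
  let J' := J \ Finset.univ.image e
  let o : Pl K → Fin ρ ⊕ Fin l ⊕ J' → ℤ := fun P => Sum.elim (fun j => P.ord (y j))
    (Sum.elim (wt e a P) fun p => P.ord (algebraMap L K (b.lam p)))
  obtain ⟨ξ', t, a0, a1, a2, a3, a4, a5, a6, a7⟩ := Tb.C13.abs S I ξ r.nn (fun P j => o P j)
    (fun P p => P.ord (algebraMap L K (F p)))
    (fun P => if h : ∃ p : Pl L, At P p then .inl h.choose else .inr ⟨1, one_ne_zero,
      fun p _ _ => Pl.ord_one _⟩) (fun p => Q.ord (algebraMap L K (F p)))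
    (fun P h z => by
      obtain ⟨p, d1, d2, d3⟩ := out P h z
      have ex : ∃ p : Pl L, At P p := ⟨p, d3⟩
      simp only [dif_pos ex, ex.choose_spec.uniq d3, d3.ord (F _), F1 _ p d1 (nr p d2)]
      exact ⟨by simpa [d2] using d3.e_pos, fun p' v => by simp [v]⟩)
    (by
      rintro (j | x' | p)
      · exact N68.ff ξT (X.fin _)
      · refine S.finite_toSet.subset fun P z => by_contra fun d => ?_
        obtain ⟨p, -, v, w⟩ := out P d (left_ne_zero_of_mul z)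
        exact right_ne_zero_of_mul z (Int.cast_eq_zero.2
          (wt_not a (fun i g => v (g.uniq w ▸ hJ i)) x'))
      · exact N68.ff ξT (X.fin _))
    (fun p => N68.ff ξT (X.fin _)) (fun p => req _ (F0 p))
    fun ζ ζ0 z1 z2 z3 p => dic _ (F0 p) (fun p' h z => by
      rw [F1 p p' h z]
      split_ifs <;> simp) (fun p' h v z => by rw [F1 p p' h z, if_neg fun d => d.1 v]) ζ ζ0 z1 z2
      fun x' => z3 (.inr (.inl x')) fun P d z => by
        obtain ⟨p, -, v, w⟩ := out P d z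
        exact Int.cast_eq_zero.2 (wt_not a (fun i g => v (g.uniq w ▸ hJ i)) x')
  have ξT' : ∀ P, ξ' P ≠ 0 → P ∈ T := fun P z => ξT P (a4 P z)
  refine ⟨ξ', t, ⟨a0, fun P z => r.sup P (a4 P z), fun φ v φ0 => ?_⟩,
    fun P h => (hS P).1 (a1 h), a2.trans (add_le_add (Finset.card_image_le.trans (by simp))
      (by simp [J'])), fun P h => a3 P ((hS P).2 h), a4, fun P h => a5 P (mt (hS P).1 h)⟩
  have fp : {p | p ∈ b.T ∧ p.ord φ ≠ 0}.Finite := by simpa using x.fin φ 0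
  let G := fp.toFinset.filter (· ∉ range e)
  have hG : ∀ p, p ∈ G ↔ (p ∈ b.T ∧ p.ord φ ≠ 0) ∧ p ∉ range e := fun p => by simp [G]
  have g0 : ∏ p ∈ G, b.lam p ^ p.ord φ ≠ 0 :=
    Finset.prod_ne_zero_iff.2 fun p _ => zpow_ne_zero _ (ok.l0 p)
  let φ' : U := ⟨φ / ∏ p ∈ G, b.lam p ^ p.ord φ, div_ne_zero φ0 g0, fun p h z => by
    rw [Pl.ord_div _ φ0 g0, Pl.ord_prod _ _ fun p _ => zpow_ne_zero _ (ok.l0 p),
      Finset.sum_eq_single p (fun p' h' d => by
        rw [Pl.ord_zpow, lo p' ((hG p').1 h').1.1 p h z, if_neg d.symm, mul_zero]) (fun d => by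
        rw [by_contra fun v : ¬ p.ord φ = 0 => d ((hG p).2 ⟨⟨h, v⟩, z⟩), zpow_zero, Pl.ord_one]),
      Pl.ord_zpow, lo p h p h z, if_pos rfl, mul_one, sub_self]⟩
  have dec : ∀ P : Pl K, P.ord (algebraMap L K φ) = P.ord (algebraMap L K φ'.1) +
      ∑ p ∈ G, p.ord φ * P.ord (algebraMap L K (b.lam p)) := fun P => by
    simp only [φ', map_div₀, map_prod, map_zpow₀]
    rw [Pl.ord_div _ ((map_ne_zero _).2 φ0) (Finset.prod_ne_zero_iff.2 fun p _ =>
      zpow_ne_zero _ ((map_ne_zero _).2 (ok.l0 p))),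
      Pl.ord_prod _ _ fun p _ => zpow_ne_zero _ ((map_ne_zero _).2 (ok.l0 p))]
    simp only [Pl.ord_zpow, sub_add_cancel]
  rw [← r.eq φ v φ0, N68.fs_hm X ξT' φ0, N68.fs_hm X ξT φ0,
    fs_lin X.fin ξT' G _ _ dec, fs_lin X.fin ξT G _ _ dec]
  refine congrArg₂ _ (congrArg₂ _ ((a7 (.inr φ')).trans (req _ φ'.2.1).symm)
    (Finset.sum_congr rfl fun p hp => congrArg _ ?_))
    (Finset.sum_congr rfl fun j _ => congrArg _ (a6 (.inl j)))
  obtain ⟨⟨d1, -⟩, d2⟩ := (hG p).1 hp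
  by_cases d : p ∈ J
  · exact a6 (.inr (.inr ⟨p, Finset.mem_sdiff.2 ⟨d, by simpa using d2⟩⟩))
  · have := a7 (.inl p)
    simp only [F, Sum.elim_inl, if_pos (And.intro d1 d)] at this
    rw [this, req _ (ok.l0 p)]

end Vale.Agent.P283R.Ck.C68
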