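import Vale.Agent.P283R.Wc.Loc24

/-!
# P283R, block CK: some of the divisors of a Cox datum are removed
-/

open Set

noncomputable section

namespace Vale.Agent.P283R.Ck.C45

open Vale.Agent.P287D Vale.Agent.P283M Cx Cy Wc Wc.L24

variable {K : Type} [Field K] [Algebra ℂ K] {k k' N l : ℕ} {j : Fin k' → Fin k} {T : Set (Pl K)}
  {e : Fin k → Pl K}

theorem dr (hj : Function.Injective j) {P : Pl K}
    (hP : P ∉ e '' (range j)ᶜ) (v : Fin k → ℤ) : v ⬝ᵥ Dr e P = (v ∘ j) ⬝ᵥ Dr (e ∘ j) P :=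
  sum_j hj _ fun i hn => by rw [Dr, if_neg fun z : P = e i => hP ⟨i, hn, z.symm⟩, mul_zero]

/-- the same generators -/
theorem loc (he : Function.Injective e) (hj : Function.Injective j) {σ : Fin N → K}
    {α : Fin N → Fin k → ℤ} (x : Cox T (Dr e) σ α) :
    Cox (T \ e '' (range j)ᶜ) (Dr (e ∘ j)) σ fun i => α i ∘ j := by
  have ex : ∀ (v : Fin k' → ℤ) (w : Fin k → ℤ), Function.extend j v w ∘ j = v := fun v w =>
    Function.extend_comp hj v w
  refine ⟨x.ne, fun v φ φ0 => ⟨fun hφ P hP => ?_, fun hφ => ?_⟩,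
    fun φ v => ?_, fun φ => ?_, fun v => ?_⟩
  · have : φ ∈ P.sub ((v ⬝ᵥ Dr (e ∘ j) P : ℤ) : ℝ) := by
      refine Submodule.span_le.2 ?_ hφ
      rintro _ ⟨c, hc, rfl⟩
      have := (x.sec (dg α c) _ (Finset.prod_ne_zero_iff.2 fun i _ =>
        pow_ne_zero (c i) (x.ne i))).1 (Submodule.subset_span ⟨c, rfl, rfl⟩) P hP.1
      rw [dr hj hP.2, show dg α c ∘ j = v from hc] at this
      exact Or.inr (by exact_mod_cast this)
    exact_mod_cast this.resolve_left φ0
  · rw [← ex v fun i => -(e i).ord φ]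
    refine sp_j _ ((x.sec _ φ φ0).2 fun P hP => ?_)
    by_cases hx : P ∈ e '' (range j)ᶜ
    · obtain ⟨i, hi, rfl⟩ := hx
      rw [dotProduct, Finset.sum_eq_single i (fun i' _ n => by
        rw [Dr, if_neg fun z => n (he z).symm, mul_zero]) (by simp), Dr, if_pos rfl,
        Function.extend_apply' _ _ _ hi]
      simp
    · rw [dr hj hx, ex]
      exact hφ P ⟨hP, hx⟩
  · refine (x.fin φ (Function.extend j v 0)).subset fun P hP => ⟨hP.1.1, ?_⟩
    rw [dr hj hP.1.2, ex]
    exact hP.2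
  · obtain ⟨v, a, ha, c, hc, r⟩ := x.fr0 φ
    exact ⟨_, a, sp_j v ha, c, sp_j v hc, r⟩
  · obtain ⟨v', a, ha, c, hc, r⟩ := x.fr1 (Function.extend j v 0)
    have := sp_j (j := j) _ ha
    rw [show (Function.extend j v 0 + v') ∘ j = v + v' ∘ j from congrArg (· + v' ∘ j) (ex v 0)]
      at this
    exact ⟨_, a, this, c, sp_j v' hc, r⟩

/-- the canonical sections of the removed divisors are dropped -/
theorem sp (hj : Function.Injective j) (s : Fin l → K) (a : Fin l → Fin k → ℤ) (v : Fin k' → ℤ) :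
    Sp (Fin.append (fun _ : Fin k => (1 : K)) s)
      (fun i => Fin.append (fun i => Pi.single i 1) a i ∘ j) v =
    Sp (Fin.append (fun _ : Fin k' => (1 : K)) s)
      (Fin.append (fun i => Pi.single i 1) fun x => a x ∘ j) v := by
  unfold Sp
  congr 1
  ext φ
  constructor
  · rintro ⟨c, hc, rfl⟩
    refine ⟨Fin.append (fun i => c (Fin.castAdd l (j i))) fun x => c (Fin.natAdd k x), ?_, ?_⟩
    · rw [← show dg _ c = v from hc]
      funext i
      simp [dg, Fin.sum_univ_add, Pi.single_apply]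
    · simp [Fin.prod_univ_add]
  · rintro ⟨c, hc, rfl⟩
    refine ⟨Fin.append (Function.extend j (fun i => c (Fin.castAdd l i)) 0)
      fun x => c (Fin.natAdd k' x), ?_, ?_⟩
    · rw [← show dg _ c = v from hc]
      funext i
      simp [dg, Fin.sum_univ_add, Pi.single_apply, hj.extend_apply]
    · simp [Fin.prod_univ_add]

/-- the restricted Cox datum -/
theorem cox (he : Function.Injective e) (hj : Function.Injective j) {s : Fin l → K}
    {a : Fin l → Fin k → ℤ} (x : Cox T (Dr e) (Fin.append (fun _ : Fin k => (1 : K)) s)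
      (Fin.append (fun i => Pi.single i 1) a)) :
    Cox (T \ e '' (range j)ᶜ) (Dr (e ∘ j)) (Fin.append (fun _ : Fin k' => (1 : K)) s)
      (Fin.append (fun i => Pi.single i 1) fun x => a x ∘ j) := by
  have y := loc he hj x
  refine ⟨fun i => ?_, fun v φ φ0 => sp hj s a v ▸ y.sec v φ φ0, y.fin, fun φ => ?_, fun v => ?_⟩
  · refine Fin.addCases (fun i => by simp) (fun i => ?_) i
    simpa using x.ne (Fin.natAdd k i)
  · simpa only [sp hj] using y.fr0 φ
  · simpa only [sp hj] using y.fr1 v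

end Vale.Agent.P283R.Ck.C45
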