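import Vale.Agent.P283R.Ck.St

/-!
# P283R, block CK: few Cox generators give a planar base
-/

open Set CategoryTheory AlgebraicGeometry

noncomputable section

namespace Vale.Agent.P283R.Ck

namespace O78

open Vale.Agent.P287D Vale.Agent.P283R.Cx Vale.Agent.P283R.Sg Vale.Agent.P297Z
open Vale.Agent.P283M.Stm Vale.Agent.P283M.Stm.Var Vale.Agent.P283M Vale.Agent.P283M.Br
open Vale.Agent.P283R.Gl Vale.Agent.P283R.Sg.T20

theorem pl {X : Var} {l k : ℕ} (D : Fin k → X.PrimeDiv)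
    (g : Sl.GradedGen l (Sec (pls (X := X) ⊤) (dvs fun i => .single (D i) 1)))
    (h : ∀ G : X.PrimeDiv →₀ ℤ, ∃ (m : Fin k → ℤ) (φ : X.K), φ ≠ 0 ∧
      ∀ E, G E = ord φ E + ∑ i, m i * Finsupp.single (D i) (1 : ℤ) E) :
    ∃ (S : Finset X.PrimeDiv) (s : Fin l → X.K) (u : Fin l → Fin 2 → Fin l → ℚ),
      (∀ G : X.PrimeDiv →₀ ℤ, ∃ g, g ≠ 0 ∧ ∀ F ∉ S, ord g F = G F) ∧
      (∀ j, s j ≠ 0 ∧ ∀ F ∉ S, 0 ≤ ord (s j) F) ∧
      (∀ g, (∀ F ∉ S, 0 ≤ ord g F) → g ∈ Submodule.span ℂ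
        {x | (∃ w : Fin l → ℕ, x = ∏ j, s j ^ w j) ∧ ∀ F ∈ S, ord g F ≤ ord x F}) ∧
      ∀ F ∈ S, ∃ j, (fun i => (ord (s i) F : ℚ)) ∈ Submodule.span ℚ (range (u j)) := by
  classical
  have ft : ∀ G : Pl X.K → ℤ, {P | P ∈ pls (X := X) ⊤ ∧ G P ≠ 0}.Finite → ∃ m ψ, ψ ≠ 0 ∧
      ∀ P ∈ pls (X := X) ⊤, G P = P.ord ψ + m ⬝ᵥ dvs (fun i => .single (D i) 1) P := fun G f => by
    obtain ⟨m, φ, φ0, e⟩ := h (Finsupp.ofSupportFinite (fun E => G (pq E))
      ((f.preimage pq_inj.injOn).subset fun E a => ⟨⟨E, trivial, rfl⟩, a⟩))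
    refine ⟨m, φ, φ0, ?_⟩
    rintro _ ⟨E, -, rfl⟩
    rw [dot, ← pq_ord]
    exact e E
  obtain ⟨σ, a, cx⟩ := Cq.B20.cox (fun φ m => fn ((fin X φ).union (finite_range D)) fun E a =>
    by_contra fun b => a (by
      rw [mem_union, not_or] at b
      rw [dot, Mt.sum_zero m b.2, ← pq_ord, not_not.1 b.1, add_zero])) ft g
  have kl := Bh.le_of_cox cx
  have sc : ∀ m φ, φ ≠ 0 → (φ ∈ Sp σ a m ↔
      ∀ E, 0 ≤ ord φ E + ∑ i, m i * Finsupp.single (D i) (1 : ℤ) E) := fun m φ φ0 =>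
    (cx.sec m φ φ0).trans (forall_mem_image.trans (forall_congr' fun E => by
      rw [dot, pq_ord]
      exact ⟨fun x => x trivial, fun x _ => x⟩))
  have nS : ∀ F ∉ Finset.univ.image D, ¬ ∃ i, D i = F := by simp
  refine ⟨Finset.univ.image D, σ, fun j _ i => if h : j < k then ord (σ i) (D ⟨j, h⟩) else 0,
    fun G => ?_, fun j => ⟨cx.ne j, fun F hF => ?_⟩, fun g hg => ?_, fun F hF => ?_⟩
  · obtain ⟨m, φ, φ0, e⟩ := h G
    exact ⟨φ, φ0, fun F hF => by rw [e, Mt.sum_zero m (nS F hF), add_zero]⟩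
  · have := (sc _ (σ j) (cx.ne j)).1 (Submodule.subset_span ⟨Pi.single j 1, rfl,
      (Finset.prod_eq_single j (fun i _ n => by simp [n]) (by simp)).trans (by simp)⟩) F
    rwa [Mt.sum_zero _ (nS F hF), add_zero] at this
  · by_cases g0 : g = 0
    · exact g0 ▸ zero_mem _
    choose r _ hr using fun F : Finset.univ.image D => Finset.mem_image.1 F.2
    let m : Fin k → ℤ := ∑ F, Pi.single (r F) (-ord g F.1)
    have hm : ∀ F ∈ Finset.univ.image D,
        ∑ i, m i * Finsupp.single (D i) (1 : ℤ) F = -ord g F := fun F hF => by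
      change m ⬝ᵥ (fun i => Finsupp.single (D i) (1 : ℤ) F) = _
      rw [sum_dotProduct, Finset.sum_eq_single ⟨F, hF⟩ (fun F' _ n => by
        rw [single_dotProduct, hr, Finsupp.single_eq_of_ne fun e => n (Subtype.ext e.symm),
          mul_zero]) (by simp), single_dotProduct, hr, Finsupp.single_eq_same, mul_one]
    refine Submodule.span_mono ?_ ((sc m g g0).2 fun E => ?_)
    · rintro _ ⟨w, hw, rfl⟩
      refine ⟨⟨w, rfl⟩, fun F hF => ?_⟩
      have := (sc m _ (Finset.prod_ne_zero_iff.2 fun j _ => pow_ne_zero (w j) (cx.ne j))).1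
        (Submodule.subset_span ⟨w, hw, rfl⟩) F
      rw [hm F hF] at this
      exact sub_nonneg.1 this
    · by_cases c : E ∈ Finset.univ.image D
      · rw [hm E c, add_neg_cancel]
      · rw [Mt.sum_zero m (nS E c), add_zero]
        exact hg E c
  · obtain ⟨i, -, rfl⟩ := Finset.mem_image.1 hF
    exact ⟨i.castLE kl, Submodule.subset_span ⟨0, funext fun j => by simp⟩⟩

end O78

open Vale.Agent.P287D Sl Sl.Var Sg Sg.T20 in
theorem planar78 {Y : Sl.Var} {l k : ℕ} {D : Fin k → Y.PrimeDiv}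
    (g : GradedGen l fun m => sections (all Y.X) (comb (fun i => .single (D i) 1) m))
    (h : ∀ G : Y.Div, InSpan (all Y.X) (fun i => .single (D i) 1) fun F => G F) : Planar l Y := by
  have es : (fun m => sections (all Y.X) (comb (fun i => Finsupp.single (D i) 1) m)) =
      Sec (pls (X := Y.o) ⊤) (dvs (X := Y.o) fun i => .single (D i) 1) :=
    funext fun m => Set.ext fun φ => (sec (X := Y.o) _ m φ).symm
  refine O78.pl (X := Y.o) D (es ▸ g) fun G => ?_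
  obtain ⟨m, φ, φ0, e⟩ := h G
  exact ⟨m, φ, φ0, fun E => Int.cast_injective (α := ℚ) (e E trivial)⟩

/-- **OLD** -/
theorem old78 : OLD := fun _ _ _ ⟨Y, φ, r, _, y, _, a, b, c, g, h⟩ =>
  ⟨Y, φ, r, y, fun x hx => let ⟨U, u1, u2, u3, u4⟩ := b x hx; ⟨U, u1, u2, u3, ⟨φ, rfl, a⟩, u4⟩, c,
    planar78 g h⟩

theorem base78 {l : ℕ} {X : Sl.Var} {V : X.X.Opens} : Sl.CoxBase l V → Sl.PlanarQuot l V :=
  fun ⟨Y, φ, r, _, y, _, b, c, g, h⟩ => ⟨Y, φ, r, y, b, c, planar78 g h⟩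

end Vale.Agent.P283R.Ck
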