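import Vale.Agent.P283R.Ck.St
import Vale.Agent.P283R.Cq.Base20

/-!
# P283R, block CK, row OLD: few Cox generators give a planar base
-/

set_option linter.all false

open Set CategoryTheory AlgebraicGeometry

noncomputable section

namespace Vale.Agent.P283R.Ck

namespace O8

open Vale.Agent.P287D Vale.Agent.P283R.Cx Vale.Agent.P283R.Sg Vale.Agent.P297Z
open Vale.Agent.P283M.Stm Vale.Agent.P283M.Stm.Var Vale.Agent.P283M Vale.Agent.P283M.Br
open Vale.Agent.P283R.Gl Vale.Agent.P283R.Sg.T20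

theorem pln {X : Var} {l k : ℕ} (D : Fin k → X.PrimeDiv)
    (g : Sl.GradedGen l (Sec (pls (X := X) ⊤) (dvs fun i => .single (D i) 1)))
    (h : ∀ G : X.PrimeDiv →₀ ℤ, ∃ (m : Fin k → ℤ) (φ : X.K), φ ≠ 0 ∧
      ∀ E, G E = ord φ E + ∑ i, m i * Finsupp.single (D i) (1 : ℤ) E) :
    ∃ (S : Finset X.PrimeDiv) (s : Fin l → X.K) (u : Fin l → Fin 2 → Fin l → ℚ),
      (∀ G : X.PrimeDiv →₀ ℤ, ∃ g, g ≠ 0 ∧ ∀ F ∉ S, ord g F = G F) ∧
      (∀ j, s j ≠ 0 ∧ ∀ F ∉ S, 0 ≤ ord (s j) F) ∧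
      (∀ g, (∀ F ∉ S, 0 ≤ ord g F) → g ∈ Submodule.span ℂ
        {x | (∃ w : Fin l → ℕ, x = ∏ j, s j ^ w j) ∧ ∀ F ∈ S, ord g F ≤ ord x F}) ∧
      ∀ F ∈ S, ∃ j, (fun i => (ord (s i) F : ℚ)) ∈ Submodule.span ℚ (Set.range (u j)) := by
  classical
  have ft : ∀ G : Pl X.K → ℤ, {P | P ∈ pls (X := X) ⊤ ∧ G P ≠ 0}.Finite → ∃ m ψ, ψ ≠ 0 ∧
      ∀ P ∈ pls (X := X) ⊤, G P = P.ord ψ + m ⬝ᵥ dvs (fun i => .single (D i) 1) P := fun G f => by
    obtain ⟨m, φ, φ0, e⟩ := h (Finsupp.ofSupportFinite (fun E => G (pq E))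
      ((f.preimage pq_inj.injOn).subset fun E a => ⟨⟨E, trivial, rfl⟩, a⟩))
    refine ⟨m, φ, φ0, ?_⟩
    rintro _ ⟨E, -, rfl⟩
    rw [dot, ← pq_ord]
    exact e E
  obtain ⟨σ, a, cx⟩ := Cq.B20.cox (fun φ m => fn ((fin X φ).union (finite_range D)) fun E a =>
    by_contra fun b => a (by
      rw [mem_union, not_or] at b
      rw [dot, Mt.sum_zero m b.2, ← pq_ord, not_not.1 b.1, add_zero])) ft g
  have kl := Bh.le_of_cox cx
  have nS : ∀ F ∉ Finset.univ.image D, ¬ ∃ i, D i = F := fun F v ⟨i, e⟩ =>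
    v (e ▸ Finset.mem_image_of_mem _ (Finset.mem_univ i))
  have sec : ∀ m φ, φ ≠ 0 → (φ ∈ Sp σ a m ↔
      ∀ E, 0 ≤ ord φ E + ∑ i, m i * Finsupp.single (D i) (1 : ℤ) E) := fun m φ φ0 =>
    (cx.sec m φ φ0).trans (forall_mem_image.trans (forall_congr' fun E => by
      rw [dot, ← pq_ord]
      exact ⟨fun x => x trivial, fun x _ => x⟩))
  refine ⟨Finset.univ.image D, σ, fun j _ i => if v : j.1 < k then ord (σ i) (D ⟨j, v⟩) else 0,
    fun G => ?_, fun j => ⟨cx.ne j, fun F v => ?_⟩, fun f hf => ?_, fun F v => ?_⟩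
  · obtain ⟨m, φ, φ0, e⟩ := h G
    exact ⟨φ, φ0, fun F v => by rw [e F, Mt.sum_zero m (nS F v), add_zero]⟩
  · have := (sec _ _ (cx.ne j)).1 (Wd.G70.sp_gen σ a j) F
    rwa [Mt.sum_zero _ (nS F v), add_zero] at this
  · rcases eq_or_ne f 0 with rfl | f0
    · exact zero_mem _
    choose ι hι using fun F : Finset.univ.image D => Finset.mem_image.1 F.2
    let m : Fin k → ℤ := ∑ F : Finset.univ.image D, (-ord f F.1) • Pi.single (ι F) 1
    have hm : ∀ E ∈ Finset.univ.image D,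
        ∑ i, m i * Finsupp.single (D i) (1 : ℤ) E = -ord f E := fun E v => by
      simp only [m, Finset.sum_apply, Finset.sum_mul, Pi.smul_apply, smul_eq_mul]
      rw [Finset.sum_comm, Finset.sum_eq_single ⟨E, v⟩]
      · rw [Finset.sum_eq_single (ι ⟨E, v⟩) (fun i _ t => by simp [t]) (by simp), (hι _).2]
        simp
      · intro F _ t
        rw [Finset.sum_eq_single (ι F) (fun i _ t => by simp [t]) (by simp), (hι _).2,
          Finsupp.single_eq_of_ne fun x => t (Subtype.ext x.symm), mul_zero]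
      · simp
    refine Submodule.span_mono ?_ ((sec m f f0).2 fun E => ?_)
    · rintro _ ⟨w, hw, rfl⟩
      refine ⟨⟨w, rfl⟩, fun F v => ?_⟩
      have := (sec m _ (Finset.prod_ne_zero_iff.2 fun j _ => pow_ne_zero _ (cx.ne j))).1
        (Submodule.subset_span ⟨w, hw, rfl⟩) F
      rw [hm F v] at this
      exact sub_nonneg.1 this
    · by_cases v : E ∈ Finset.univ.image D
      · rw [hm E v, add_neg_cancel]
      · rw [Mt.sum_zero _ (nS E v), add_zero]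
        exact hf E v
  · obtain ⟨i, -, rfl⟩ := Finset.mem_image.1 v
    exact ⟨Fin.castLE kl i, Submodule.subset_span ⟨0, funext fun j => dif_pos i.2⟩⟩

end O8

open Vale.Agent.P287D Sl Sl.Var Sg Sg.T20 in
/-- a base with few Cox generators is planar -/
theorem planar8 (Y : Sl.Var) (l k : ℕ) (D : Fin k → Y.PrimeDiv)
    (g : GradedGen l (fun m => sections (all Y.X) (comb (fun i => .single (D i) 1) m)))
    (h : ∀ G : Y.Div, InSpan (all Y.X) (fun i => .single (D i) 1) fun F => G F) : Planar l Y := by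
  have es : (fun m => sections (all Y.X) (comb (fun i => Finsupp.single (D i) 1) m)) =
      Sec (pls (X := Y.o) ⊤) (dvs (X := Y.o) fun i => .single (D i) 1) :=
    funext fun m => Set.ext fun φ => (sec (X := Y.o) _ m φ).symm
  refine O8.pln (X := Y.o) D (es ▸ g) fun G => ?_
  obtain ⟨m, φ, φ0, e⟩ := h G
  exact ⟨m, φ, φ0, fun E => Int.cast_injective (α := ℚ) (e E trivial)⟩

/-- **OLD** -/
theorem old8 : OLD := by
  rintro l X V ⟨Y, φ, r, k, y, D, i, a, b, g, h⟩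
  exact ⟨Y, φ, r, y, fun x hx => (a x hx).imp fun U u =>
    ⟨u.1, u.2.1, u.2.2.1, ⟨φ, rfl, i⟩, u.2.2.2⟩, b, planar8 Y l k D g h⟩

/-- the short word is contained too -/
theorem oldBase8 {l : ℕ} {X : Sl.Var} {V : X.X.Opens} (h : Sl.CoxBase l V) : Sl.PlanarQuot l V :=
  let ⟨Y, φ, r, k, y, D, a, b, g, h⟩ := h
  ⟨Y, φ, r, y, a, b, planar8 Y l k D g h⟩

end Vale.Agent.P283R.Ck
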