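import Vale.Agent.P283R.Ck.St

/-!
# P283R, block CK: the scheme side
-/

open Set CategoryTheory AlgebraicGeometry

noncomputable section

namespace Vale.Agent.P283R.Ck

open Vale.Agent.P287D Vale.Agent.P283M Vale.Agent.P297Z Cx Cy Cq Vale.Agent.P283M.Br
open Vale.Agent.P283R.To (mon)

open Vale.Agent.P283M.Stm Vale.Agent.P283M.Stm.Var Vale.Agent.P283R.Gl in
theorem fm29 {X : Stm.Var} {L : Type} [Field L] [Algebra ℂ L] [Algebra L X.K]
    [IsScalarTower ℂ L X.K] {c r l : ℕ} {b : Ba L c} (ok : b.Ok l) {W : X.X.Opens}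
    {y : Fin r → X.K} {x : P289.Pt X.X} (hx : x ∈ W) (co : I12.CoL L W y)
    (pg : ∀ E : X.PrimeDiv, E.1 ∈ W → Trv (algebraMap L X.K) (pq E) ∨ ∃ p ∈ b.T, At (pq E) p) :
    Fm b y {P | ∃ E : X.PrimeDiv, E.1 ∈ W ∧ pq E = P} := by
  obtain ⟨r1, r2, r3⟩ := rat12 X L c r W y x ok.ff hx co.1 co.2
  obtain ⟨k1, k2⟩ := eqk60 X L c r W y x ok.ff hx co.1 co.2
  refine ⟨r1, r2, ?_, inv12 X L c r W y x ok.ff hx co.1 co.2,
    lau12 X L c r W y x ok.ff hx co.1 co.2, k1, fun P a z => ?_,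
    mis29 X L c r W y x ok.ff hx co.1 co.2 b l ok, ?_⟩
  · refine ((r3 b.s ok.fr).union (r2 (algebraMap _ _ b.h))).subset fun P a => by_contra fun n => ?_
    have n1 : lt b.s y P = 1 := by_contra fun z => n (.inl ⟨a.1, z⟩)
    have n2 : P.ord (algebraMap L X.K b.h) = 0 := by_contra fun z => n (.inr ⟨a.1, z⟩)
    exact a.2 (show ⌊lt b.s y P⌋ - 1 - P.ord (algebraMap L X.K b.h) = 0 by rw [n1, n2]; simp)
  · have := z b.h 0 ok.can.1
    simp only [hm, mon, Pi.zero_apply, zpow_zero, Finset.prod_const_one, mul_one] at this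
    simp [cz, k2 b.s ok.fr P a z, this]
  · rintro _ ⟨E, hE, rfl⟩
    exact pg E hE

open Sl Sl.Var Vale.Agent.P283R.Gl in
/-- **ONS** -/
theorem ons29 : ONS := by
  intro bsk h m d hd ε hε R hR
  obtain ⟨n, rfl⟩ : ∃ n, d = n + 1 := ⟨d - 1, by omega⟩
  obtain ⟨M, M1, H⟩ := h (m (n + 1)) n (∏ r ∈ R, r.den) ε
    (Finset.prod_pos fun r _ => r.den_pos) hε
  refine ⟨M, M1, fun X Z f ω B z a b c e s u ⟨u1, u2, W, zW, Y, φ, r, y, ch, pg, pl⟩ =>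
    (has_iff f ω B M z).2 ?_⟩
  obtain ⟨x, hx⟩ := s.2.2.1.surj z
  obtain ⟨-, -, -, -, ⟨ψ, rfl, ind⟩, -⟩ := ch x (show f x ∈ W from hx ▸ zW)
  obtain ⟨c', bs, σ, kk, bT⟩ := bsk Y _ pl
  let _ : Algebra Y.K X.o.K := ψ.toRingHom.toAlgebra
  have i4 : IsScalarTower ℂ Y.K X.o.K := .of_algebraMap_eq fun c => (ψ.commutes c).symm
  obtain ⟨V, v0, hV, zV, co⟩ := @sum_co X.o Y.o Z.o f z W r _ i4 y s zW
    ⟨algebraicIndependent_iff.2 ind, fun x w => (ch x w).imp fun _ k =>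
      ⟨k.1, k.2.1, k.2.2.1, k.2.2.2.2⟩⟩
  have fm := @fm29 X.o Y.K _ _ _ i4 c' r _ bs kk.ok (pre f V) y x (show f x ∈ V from hx ▸ zV) co
    fun E hE => by
      have e : ∀ g : X.K, ord g E = (pq (X := X.o) E).ord g := pq_ord (X := X.o) E
      obtain z | ⟨F, μ, z⟩ := pg E (v0 hE)
      · refine .inl fun g => ?_
        by_cases g0 : g = 0
        · simp [g0]
        · exact (Pl.ord_nonneg_iff _ ((map_ne_zero _).2 g0)).1 ((e _).symm.trans (z g)).ge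
      · exact (lies96 _ _ (pq (X := Y.o) F) μ fun c => (e _).symm.trans ((z c).trans
          (congrArg _ (pq_ord (X := Y.o) F c)))).imp_right fun a => ⟨_, bT ▸ mem_range_self F, a⟩
  exact H42.sch (X := X.o) (Z := Z.o) M1 (fun v Λ Γ Γ' hK da T co lc nf =>
    @H Y.K X.K _ _ _ _ _ i4 c' r v Λ Γ Γ' bs y σ kk
      (Nat.cast_injective (fm.ext.ff'.trdeg.symm.trans hK.trdeg)) da
      ((Set.ext T : Cx.Tt n v Λ = {P | ∃ E : X.o.PrimeDiv, E.1 ∈ pre f V ∧ Gl.pq E = P}) ▸ fm)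
      co lc nf) a b ((pair_iff _ _ ω B).1 c) (C3.den e) s
    ((fanoType_iff f ω).1 u1) ((nefOver_iff f _).1 u2) u hV zV

end Vale.Agent.P283R.Ck
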