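import Vale.Agent.P283R.Ck.St
import Vale.Agent.P283R.Tb.Few96

/-!
# P283R, block CK: vectors in few planes
-/

open Set

noncomputable section

namespace Vale.Agent.P283R.Ck

namespace P56

theorem den (x : Fin 2 → ℚ) : ∃ (n : ℕ) (z : Fin 2 → ℤ), 0 < n ∧ ∀ i, (z i : ℚ) = n * x i :=
  ⟨(x 0).den * (x 1).den, ![(x 0).num * (x 1).den, (x 1).num * (x 0).den],
    Nat.mul_pos (x 0).pos (x 1).pos, fun i => by
      have a := Rat.mul_den_eq_num (x 0)
      have b := Rat.mul_den_eq_num (x 1)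
      fin_cases i
      · simp only [Fin.zero_eta, Matrix.cons_val_zero, Int.cast_mul, Int.cast_natCast, Nat.cast_mul]
        rw [← a]
        ring
      · simp only [Fin.mk_one, Matrix.cons_val_one, Matrix.cons_val_zero, Int.cast_mul,
          Int.cast_natCast, Nat.cast_mul]
        rw [← b]
        ring⟩

theorem one {l : ℕ} {α : Type} (v : α → Fin l → ℤ) (u : Fin 2 → Fin l → ℚ) (A : Finset α)
    (h : ∀ a ∈ A, (fun i => (v a i : ℚ)) ∈ Submodule.span ℚ (range u)) :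
    ∃ Δ ⊆ A, Δ.card ≤ 8 ∧ ∀ m : Fin l → ℤ, (∀ a ∈ Δ, 0 ≤ m ⬝ᵥ v a) → ∀ a ∈ A, 0 ≤ m ⬝ᵥ v a := by
  have : ∀ a, ∃ x : Fin 2 → ℚ, a ∈ A → ∑ t, x t • u t = fun i => (v a i : ℚ) := fun a => by
    by_cases e : a ∈ A
    · obtain ⟨x, hx⟩ := (Submodule.mem_span_range_iff_exists_fun ℚ).1 (h a e)
      exact ⟨x, fun _ => hx⟩
    · exact ⟨0, fun b => (e b).elim⟩
  choose x hx using this
  choose n z n0 hz using fun a => den (x a)
  obtain ⟨Δ, d1, d2, d3⟩ := Tb.few2 (c := 2) le_rfl A z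
  refine ⟨Δ, d1, d2, fun m hm => ?_⟩
  obtain ⟨N, w, N0, hw⟩ := den fun t => ∑ i, (m i : ℚ) * u t i
  have key : ∀ a ∈ A, w ⬝ᵥ z a = (N * n a : ℕ) * (m ⬝ᵥ v a) := fun a ha => by
    have e : ∀ i, (v a i : ℚ) = x a 0 * u 0 i + x a 1 * u 1 i := fun i => by
      simpa [Fin.sum_univ_two] using (congrFun (hx a ha) i).symm
    have : ((w ⬝ᵥ z a : ℤ) : ℚ) = (((N * n a : ℕ) * (m ⬝ᵥ v a) : ℤ) : ℚ) := by
      simp only [dotProduct, Fin.sum_univ_two, Int.cast_add, Int.cast_mul, Int.cast_sum, hw, hz, e,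
        Int.cast_natCast, Nat.cast_mul, mul_add, Finset.sum_add_distrib, Finset.mul_sum,
        Finset.sum_mul]
      exact congrArg₂ (· + ·) (Finset.sum_congr rfl fun _ _ => by ring)
        (Finset.sum_congr rfl fun _ _ => by ring)
    exact_mod_cast this
  intro a ha
  have := d3 w (fun b hb => by
    rw [key b (d1 hb)]
    exact mul_nonneg (Nat.cast_nonneg _) (hm b hb)) a ha
  rw [key a ha] at this
  exact nonneg_of_mul_nonneg_right this (by exact_mod_cast Nat.mul_pos N0 (n0 a))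

end P56

theorem pln56 : PLN := by
  classical
  intro l α v u A h
  choose Δ d1 d2 d3 using fun j => P56.one v (u j)
    (A.filter fun a => (fun i => (v a i : ℚ)) ∈ Submodule.span ℚ (range (u j)))
    fun a ha => (Finset.mem_filter.1 ha).2
  refine ⟨Finset.univ.biUnion Δ, fun a ha => ?_, ?_, fun m hm a ha => ?_⟩
  · obtain ⟨j, -, hj⟩ := Finset.mem_biUnion.1 ha
    exact (Finset.mem_filter.1 (d1 j hj)).1
  · refine Finset.card_biUnion_le.trans ((Finset.sum_le_card_nsmul _ _ 8 fun j _ => d2 j).trans ?_)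
    simp [mul_comm]
  · obtain ⟨j, hj⟩ := h a ha
    exact d3 j m (fun b hb => hm b (Finset.mem_biUnion.2 ⟨j, Finset.mem_univ j, hb⟩)) a
      (Finset.mem_filter.2 ⟨ha, hj⟩)

end Vale.Agent.P283R.Ck
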