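import Vale.Agent.P283R.Cq.St
import Vale.Agent.P283R.Ck.Cox45

/-!
# P283R, block CK: the base without some of its divisors
-/

open Set

noncomputable section

namespace Vale.Agent.P283R.Ck.R45

open Vale.Agent.P287D Vale.Agent.P283M Cx Cy Cq
open Wc (Dr)

variable {L K : Type} [Field L] [Algebra ℂ L] [Field K] [Algebra ℂ K] [Algebra L K]
  {c ρ k' l N : ℕ}

open Classical in
/-- the base without the divisors `e i`, `i` outside of the range of `j` -/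
def res (b : Ba L c) (e : Fin b.k → Pl L) (j : Fin k' → Fin b.k) (s : Fin l → L)
    (a : Fin l → Fin b.k → ℤ) : Ba L c where
  k := k'
  N := k' + l
  T := b.T \ e '' (range j)ᶜ
  D := Dr (e ∘ j)
  σ := Fin.append (fun _ : Fin k' => (1 : L)) s
  a := Fin.append (fun i => Pi.single i 1) fun x => a x ∘ j
  s := b.s
  h := b.h
  e := b.e ∘ j
  lam := b.lam
  dg := fun p => b.dg p ∘ j
  S := Finset.univ.image (e ∘ j)

variable {b : Ba L c} {e : Fin b.k → Pl L} {j : Fin k' → Fin b.k} {s : Fin l → L}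
  {a : Fin l → Fin b.k → ℤ} {y : Fin ρ → K} {T : Set (Pl K)}

theorem mem_S {p : Pl L} : p ∈ (res b e j s a).S ↔ ∃ i, e (j i) = p := by simp [res]

theorem ok (h : b.Ok N) (he : Function.Injective e) (hj : Function.Injective j)
    (hD : ∀ p ∈ b.T, b.D p = Dr e p) (x : Cox b.T (Dr e) (Fin.append (fun _ : Fin b.k => (1 : L)) s)
      (Fin.append (fun i => Pi.single i 1) a)) : (res b e j s a).Ok (k' + l) := by
  classical
  refine ⟨h.ff, h.fr, C45.cox he hj x, ⟨h.can.1, fun p hp => ?_⟩, h.l0, fun p hp p' hp' => ?_,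
    fun p _ n => ?_, le_rfl, Finset.card_image_le.trans (by simp)⟩
  · have := h.can.2 p hp.1
    rwa [hD p hp.1, C45.dr hj hp.2] at this
  · have := h.lam p hp.1 p' hp'.1
    rwa [hD p' hp'.1, C45.dr hj hp'.2] at this
  · funext i
    exact if_neg fun z => n (mem_S.2 ⟨i, Eq.symm z⟩)

theorem cz_res : cz (res b e j s a) y = cz b y := rfl

theorem fm (h : Fm b y T) (n : ∀ P ∈ T, ∀ i ∉ range j, ¬ At P (e i)) : Fm (res b e j s a) y T :=
  ⟨h.ext, h.fin, h.finc, h.inv, h.lau, h.eqn, h.kt, h.mis.subset fun _ hp => ⟨hp.1.1, hp.2⟩,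
    fun P hP => (h.pg P hP).imp_right fun ⟨p, hp, z⟩ =>
      ⟨p, ⟨hp, fun ⟨i, hi, w⟩ => n P hP i hi (w ▸ z)⟩, z⟩⟩

theorem pk {d q : ℕ} {ε : ℝ} {g : K} {κ : Pl K → ℤ} (h : Pk N d q ε b y T g κ)
    (he : Function.Injective e) (hj : Function.Injective j) (hD : ∀ p ∈ b.T, b.D p = Dr e p)
    (x : Cox b.T (Dr e) (Fin.append (fun _ : Fin b.k => (1 : L)) s)
      (Fin.append (fun i => Pi.single i 1) a)) (n : ∀ P ∈ T, ∀ i ∉ range j, ¬ At P (e i)) :
    Pk (k' + l) d q ε (res b e j s a) y T g κ :=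
  ⟨ok h.ok he hj hD x, h.dim, fm h.fm n, h.g0, h.reg, h.fin, h.eff, h.hw, h.av⟩

theorem Pk.mono {d q l' : ℕ} {ε : ℝ} {g : K} {κ : Pl K → ℤ} (h : Pk N d q ε b y T g κ)
    (le : N ≤ l') : Pk l' d q ε b y T g κ :=
  ⟨⟨h.ok.ff, h.ok.fr, h.ok.cox, h.ok.can, h.ok.l0, h.ok.lam, h.ok.sup, h.ok.bN.trans le,
    h.ok.bS.trans le⟩, h.dim, h.fm, h.g0, h.reg, h.fin, h.eff, h.hw, h.av⟩

end Vale.Agent.P283R.Ck.R45
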