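import Vale.Agent.P283R.Ck.St

/-!
# P283R, block CK: the package and the wide state over the smaller base
-/

open Set

noncomputable section

namespace Vale.Agent.P283R.Ck

open Vale.Agent.P287D Vale.Agent.P283M Cx Cy Cq

/-- **RES** -/
theorem res45 : RES := by
  intro L K _ _ _ _ _ _ c ρ b y T l s Δ b' n d q ε g κ h x no
  have e : cz b' y = cz b y := funext fun P => by rw [cz, cz, h.hs, h.hh]
  have f := x.fm
  refine ⟨⟨h.ok, x.dim, ⟨f.ext, f.fin, e ▸ f.finc, f.inv, f.lau, f.eqn, e ▸ f.kt,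
    f.mis.subset fun p hp => ⟨(h.hT ▸ hp.1 : p ∈ b.T \ _).1, hp.2⟩, fun P hP =>
      (f.pg P hP).imp_right fun ⟨p, hp, z⟩ => ⟨p, h.hT ▸ ⟨hp, fun m => m.2 (no P hP p m.1 z)⟩, z⟩⟩,
    x.g0, x.reg, x.fin, e ▸ x.eff, fun Q ξ r => e ▸ x.hw Q ξ r, e ▸ x.av⟩, e⟩

namespace S45

variable {L K : Type} [Field L] [Algebra ℂ L] [Field K] [Algebra ℂ K] [Algebra L K]
  {c ρ r l n : ℕ} {b b' : Ba L c} {s : Fin l → L} {Δ : Finset (Pl L)}

open Classical in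
/-- the pages of the boundary under the primes `t` -/
def pg (b : Ba L c) (t : Finset (Pl K)) : Finset (Pl L) := b.S.filter fun p => ∃ P ∈ t, At P p

theorem pg_sub (t : Finset (Pl K)) : pg b t ⊆ b.S := by
  classical
  exact Finset.filter_subset _ _

theorem mem_pg {t : Finset (Pl K)} {p : Pl L} : p ∈ pg b t ↔ p ∈ b.S ∧ ∃ P ∈ t, At P p := by
  classical
  exact Finset.mem_filter

theorem pg_card (t : Finset (Pl K)) : (pg b t).card ≤ t.card :=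
  Finset.card_le_card_of_forall_subsingleton (fun p P => At P p)
    (fun _ h => (mem_pg.1 h).2) fun _ _ _ h _ h' => h.2.uniq h'.2

open Classical

section

variable {y : Fin ρ → K} {T : Set (Pl K)} {J : Finset (Pl L)} {t : Finset (Pl K)}

theorem no : ∀ P ∈ T \ (Kt y T (J ∪ b.S) \ ↑t), ∀ p ∈ b.S, At P p → p ∈ pg b t :=
  fun P hP _ hp z => mem_pg.2 ⟨hp, P, by_contra fun m => hP.2 ⟨⟨hP.1, not_hz96 y z,
    fun _ hp' z' => hp' (z.uniq z' ▸ Finset.mem_union_right _ hp)⟩, m⟩, z⟩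

theorem sub : J ∪ pg b t ⊆ J ∪ b.S := Finset.union_subset_union le_rfl (pg_sub t)

theorem out {P : Pl K} (hP : P ∈ T \ (Kt y T (J ∪ b.S) \ ↑t)) {p : Pl L} (hp : p ∉ J ∪ pg b t)
    (z : At P p) : p ∉ J ∪ b.S := fun k => hp ((Finset.mem_union.1 k).elim
  (Finset.mem_union_left _) fun m => Finset.mem_union_right _ (no P hP p m z))

theorem keep {X : Set (Pl K)} {P : Pl K} (hP : P ∈ T) {p : Pl L} (hp : p ∉ J) (z : At P p) :
    P ∈ T \ (Kt y T J \ X) := ⟨hP, fun x => x.1.2.2 p hp z⟩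

theorem kt : Kt y (T \ (Kt y T (J ∪ b.S) \ ↑t)) (J ∪ pg b t) ⊆ ↑t := fun P k => by
  by_contra x
  exact k.1.2 ⟨⟨k.1.1, k.2.1, fun p hp => k.2.2 p fun m => hp (sub m)⟩, x⟩

theorem kt' {P : Pl K} (hP : P ∈ Kt y T (J ∪ b.S)) (ht : P ∈ t) :
    P ∈ Kt y (T \ (Kt y T (J ∪ b.S) \ ↑t)) (J ∪ pg b t) :=
  have m : P ∈ T \ (Kt y T (J ∪ b.S) \ ↑t) := ⟨hP.1, fun x => x.2 ht⟩
  ⟨m, hP.2.1, fun p hp z => hP.2.2 p (out m hp z) z⟩

theorem un {ι : Type} {x : ι → K} (u : Un T (J ∪ b.S) x) :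
    Un (T \ (Kt y T (J ∪ b.S) \ ↑t)) (J ∪ pg b t) x :=
  fun P hP p hp z => u P hP.1 p (out hP hp z) z

theorem cz_eq (h : Rs b b' s Δ) : cz b' y = cz b y := funext fun P => by rw [cz, cz, h.hs, h.hh]

theorem od (h : Rs b b' s (pg b t)) {κ : Pl K → ℤ} (o : Od b y T (J ∪ b.S) κ) :
    Od b' y (T \ (Kt y T (J ∪ b.S) \ ↑t)) (J ∪ pg b t) κ :=
  ⟨h.hS ▸ Finset.subset_union_right, fun P hP p hp z =>
    cz_eq (y := y) h ▸ o.od P hP.1 p (out hP hp z) z⟩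

theorem ef (h : Rs b b' s (pg b t)) {f : L} (x : Ef b T (J ∪ b.S) f) :
    Ef b' (T \ (Kt y T (J ∪ b.S) \ ↑t)) (J ∪ pg b t) f := by
  obtain ⟨E, e1, e2⟩ := x
  refine ⟨E, fun p => (e1 p).trans ?_, h.hl ▸ e2⟩
  rw [h.hT]
  refine ⟨fun ⟨p1, p2, p3⟩ => ⟨⟨p1, fun m => p2 (Finset.mem_union_right _ m.1)⟩,
    fun m => p2 (sub m), fun ⟨P, k, z⟩ => p3 ⟨P, k.1, z⟩⟩, fun ⟨p1, p2, p3⟩ => ?_⟩
  have n : p ∉ J ∪ b.S := fun m => p2 ((Finset.mem_union.1 m).elim (Finset.mem_union_left _)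
    fun m' => Finset.mem_union_right _ (by_contra fun k => p1.2 ⟨m', k⟩))
  exact ⟨p1.1, n, fun ⟨P, k, z⟩ => p3 ⟨P, keep k n z, z⟩⟩

theorem wi {W ρ' : ℕ} {u : Fin ρ' → K} {I : Finset (Pl L)} (x : Wi W u T I (J ∪ b.S)) :
    Wi W u (T \ (Kt y T (J ∪ b.S) \ ↑t)) I (J ∪ pg b t) := fun ν n => (x ν n).trans (by
  refine ncard_le_ncard ?_ (I.finite_toSet.subset fun p hp => hp.1)
  rintro p ⟨p1, p2, P, k, P', k', z, z', w⟩
  exact ⟨p1, fun m => p2 (sub m), P, keep k p2 z, P', keep k' p2 z', z, z', w⟩)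

theorem rep {Q : Pl K} {ξ : Pl K → ℝ} (x : Rep L y T Q ξ)
    (ts : ∀ P ∈ Kt y T J, ξ P ≠ 0 → P ∈ t) : Rep L y (T \ (Kt y T J \ ↑t)) Q ξ :=
  ⟨x.nn, fun P k => ⟨⟨(x.sup P k).1, fun m => m.2 (ts P m.1 k)⟩, (x.sup P k).2⟩, x.eq⟩

variable [IsScalarTower ℂ L K]

theorem pk (h : Rs b b' s (pg b t)) (fin : (Kt y T (J ∪ b.S)).Finite) {d q : ℕ} {ε : ℝ} {g : K}
    {κ : Pl K → ℤ} (x : Pk n d q ε b y T g κ) :
    Pk ((pg b t).card + l) d q ε b' y (T \ (Kt y T (J ∪ b.S) \ ↑t)) g κ :=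
  (res45 L K c ρ b y _ l s _ b' n d q ε g κ h (drp47 L K c ρ b y T n d q ε g κ _ x
    (fin.subset sdiff_subset) fun _ k => k.1.2.1) no).1

end

variable [IsScalarTower ℂ L K]

/-- the wide state over the smaller base -/
theorem sc {y : Fin r → K} {u : Fin ρ → K} {T : Set (Pl K)} {I J : Finset (Pl L)}
    {t : Finset (Pl K)} (h : Rs b b' s (pg b t))
    (fin : (Kt (Fin.append y u) T (J ∪ b.S)).Finite) {W q : ℕ} {ε : ℝ} {ψ κ Q ξ}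
    (S : Sc W n q ε b y u T ψ κ Q ξ I (J ∪ b.S))
    (ts : ∀ P ∈ Kt (Fin.append y u) T (J ∪ b.S), ξ P ≠ 0 → P ∈ t) :
    Sc W ((pg b t).card + l) q ε b' y u (T \ (Kt (Fin.append y u) T (J ∪ b.S) \ ↑t)) ψ κ Q ξ I
      (J ∪ pg b t) :=
  ⟨pk h fin S.pk, S.g0, rep S.rep ts, fun P k p hp hp' z => S.pos P k.1 p hp (out k hp' z) z,
    od h S.od, un S.y1, fun P k => S.u0 P k.1, wi S.wi⟩

end S45

end Vale.Agent.P283R.Ck
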