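import Vale.Agent.P283R.Ck.St

/-!
# P283R, block CK: the smaller base exists
-/

open Set

noncomputable section

namespace Vale.Agent.P283R.Ck

open Vale.Agent.P287D Vale.Agent.P283M Cx Cy Cq

/-- **RSR** -/
theorem rsr50 : RSR := by
  intro bld L _ _ c l b s Δ k le
  have o : ∀ p ∈ b.T \ (↑b.S \ ↑Δ), p ∉ Δ → p ∉ b.S := fun p hp n e => hp.2 ⟨e, n⟩
  have i : ∀ p ∈ b.T, p ∉ b.S → p ∈ b.T \ (↑b.S \ ↑Δ) ∧ p ∉ Δ := fun p hp n =>
    ⟨⟨hp, fun e => n e.1⟩, fun e => n (le e)⟩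
  have mb : Mb c (b.T \ (↑b.S \ ↑Δ)) Δ s :=
    { ff := k.mb.ff
      sub := fun p hp => ⟨k.mb.sub (le hp), fun e => e.2 hp⟩
      fin := fun φ => (k.mb.fin φ).subset fun p hp => ⟨hp.1.1, hp.2⟩
      pri := fun G hG => by
        obtain ⟨g, g0, hg⟩ := k.mb.pri G ((hG.union b.S.finite_toSet).subset fun p hp => by
          by_cases n : p ∈ b.S
          · exact .inr n
          · exact .inl ⟨(i p hp.1 n).1, hp.2⟩)
        exact ⟨g, g0, fun p hp n => hg p hp.1 (o p hp n)⟩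
      s0 := fun j => ⟨(k.mb.s0 j).1, fun p hp n => (k.mb.s0 j).2 p hp.1 (o p hp n)⟩
      mono := fun g hg => by
        refine Submodule.span_mono ?_ (k.mb.mono g fun p hp n => hg p (i p hp n).1 (i p hp n).2)
        exact fun x hx => ⟨hx.1, fun p hp => hx.2 p (le hp)⟩ }
  obtain ⟨b', h1, h2, h3, h4, h5, h6, h7, -⟩ := bld L c l _ Δ s b.s b.h b.lam mb k.ok.fr k.ok.can.1
    (fun p hp n => by
      rw [k.ok.can.2 p hp.1, k.ok.sup p hp.1 (o p hp n), dotProduct_zero, Int.cast_zero, add_zero])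
    k.ok.l0 (fun p hp => k.one p (le hp)) fun p hp _ p' hp' n' => by
      have := k.ok.lam p hp.1 p' hp'.1
      rwa [k.ok.sup p' hp'.1 (o p' hp' n'), dotProduct_zero, add_zero] at this
  exact ⟨b', h1, h2, h3, h4, h5, h6, h7⟩

end Vale.Agent.P283R.Ck
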