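import Vale.Agent.P283R.Ck.St

/-!
# P283R, block CK: the rows RSR and WTS
-/

open Set

noncomputable section

namespace Vale.Agent.P283R.Ck

open Vale.Agent.P287D Vale.Agent.P283M Cx Cy Cq

/-- **RSR** -/
theorem rsr59 : RSR := by
  classical
  intro bld L _ _ c l b s Δ k sub
  have e : ∀ p ∈ b.T \ (↑b.S \ ↑Δ), p ∉ Δ → p ∈ b.T ∧ p ∉ b.S := fun p hp n =>
    ⟨hp.1, fun h => hp.2 ⟨h, n⟩⟩
  have e' : ∀ p ∈ b.T, p ∉ b.S → p ∈ b.T \ (↑b.S \ ↑Δ) ∧ p ∉ Δ := fun p hp n =>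
    ⟨⟨hp, fun h => n h.1⟩, fun h => n (sub h)⟩
  have mb : Mb c (b.T \ (↑b.S \ ↑Δ)) Δ s :=
    ⟨k.mb.ff, fun p hp => ⟨k.mb.sub (sub hp), fun h => h.2 hp⟩,
      fun φ => (k.mb.fin φ).subset fun p hp => ⟨hp.1.1, hp.2⟩,
      fun G hG => (k.mb.pri G ((hG.union b.S.finite_toSet).subset fun p hp =>
        or_iff_not_imp_right.2 fun n => ⟨(e' p hp.1 n).1, hp.2⟩)).imp fun g h =>
          ⟨h.1, fun p hp n => h.2 p (e p hp n).1 (e p hp n).2⟩,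
      fun j => ⟨(k.mb.s0 j).1, fun p hp n => (k.mb.s0 j).2 p (e p hp n).1 (e p hp n).2⟩,
      fun g hg => Submodule.span_mono (fun x hx => And.intro hx.1 fun p hp => hx.2 p (sub hp))
        (k.mb.mono g fun p hp n => hg p (e' p hp n).1 (e' p hp n).2)⟩
  obtain ⟨b', ok, h1, h2, h3, h4, h5, h6, -⟩ := bld L c l _ Δ s b.s b.h b.lam mb k.ok.fr k.ok.can.1
    (fun p hp n => by
      have := k.ok.can.2 p (e p hp n).1
      rw [k.ok.sup p (e p hp n).1 (e p hp n).2] at this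
      simpa using this) k.ok.l0 (fun p hp => k.one p (sub hp))
    fun p hp n p' hp' n' => by
      have := k.ok.lam p (e p hp n).1 p' (e p' hp' n').1
      rw [k.ok.sup p' (e p' hp' n').1 (e p' hp' n').2, dotProduct_zero, add_zero] at this
      convert this
  exact ⟨b', ok, h1, h2, h3, h4, h5, h6⟩

/-- **WTS** -/
theorem wts59 : WTS := by
  intro pq l n q ε q0 e0
  obtain ⟨m, m2, H⟩ := pq l (n + 1) q ε q0 e0
  refine ⟨q * m, Nat.mul_pos q0 (by omega), ?_⟩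
  intro L K _ _ _ _ _ _ c ρ u Λ Γ Γ' b y s k hn a fm hi lc nf
  obtain ⟨g, κ, lk, pk⟩ := cdr42 cz60 (Wc.avr95 Wc.cox36 Wc.loc24) n K u Λ Γ Γ' a L _ q c ρ ε b y
    q0 e0 k.ok hn fm hi lc nf
  exact Wc.bkr64 Wc.cox36 n K u Λ Γ Γ' a q m _ g κ q0 m2 lk fun Q o =>
    H L K c ρ b y _ s _ g κ Q k pk fun x x0 hx => Wc.ovq22 n K u Λ Γ Γ' a Q x o x0 hx

end Vale.Agent.P283R.Ck
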