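import Vale.Agent.P283R.Cq.All
import Vale.Agent.P283R.Sl.Ck

/-!
# P283R, block CK: torus actions over a base with many boundary divisors, the statements
-/

open Set CategoryTheory AlgebraicGeometry

noncomputable section

namespace Vale.Agent.P283R.Ck

open Vale.Agent.P287D Vale.Agent.P283M Cx Cy Cq
open Vale.Agent.P283R.To (mon)
open Wc (Sec)

section defs

variable {L : Type} [Field L] [Algebra ℂ L] {c l : ℕ}

/-- the functions which are regular outside of `S` are spanned by monomials -/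
structure Mb (c : ℕ) (T : Set (Pl L)) (S : Finset (Pl L)) (s : Fin l → L) : Prop where
  ff : FF L c
  sub : ↑S ⊆ T
  fin : ∀ φ : L, {p | p ∈ T ∧ p.ord φ ≠ 0}.Finite
  pri : ∀ G : Pl L → ℤ, {p | p ∈ T ∧ G p ≠ 0}.Finite →
    ∃ g : L, g ≠ 0 ∧ ∀ p ∈ T, p ∉ S → p.ord g = G p
  s0 : ∀ j, s j ≠ 0 ∧ ∀ p ∈ T, p ∉ S → 0 ≤ p.ord (s j)
  mono : ∀ g : L, (∀ p ∈ T, p ∉ S → 0 ≤ p.ord g) → g ∈ Submodule.span ℂ
    {x | (∃ w : Fin l → ℕ, x = ∏ j, s j ^ w j) ∧ ∀ p ∈ S, p.ord g ≤ p.ord x}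

/-- few members of `S` generate the cone -/
def Gc (S : Finset (Pl L)) (s : Fin l → L) : Prop :=
  ∀ A ⊆ S, ∃ Δ ⊆ A, Δ.card ≤ 8 * l ∧ ∀ m : Fin l → ℤ,
    (∀ p ∈ Δ, 0 ≤ m ⬝ᵥ fun j => p.ord (s j)) → ∀ p ∈ A, 0 ≤ m ⬝ᵥ fun j => p.ord (s j)

/-- the base with many boundary divisors -/
structure Kk (b : Ba L c) (s : Fin l → L) : Prop where
  ok : b.Ok (b.S.card + l)
  mb : Mb c b.T b.S s
  one : ∀ p ∈ b.S, b.lam p = 1
  sg : ∀ j, s j ∈ range b.σ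
  gen : Gc b.S s

/-- the boundary divisors outside of `Δ` are removed -/
structure Rs (b b' : Ba L c) (s : Fin l → L) (Δ : Finset (Pl L)) : Prop where
  ok : b'.Ok (Δ.card + l)
  hT : b'.T = b.T \ (↑b.S \ ↑Δ)
  hS : b'.S = Δ
  hs : b'.s = b.s
  hh : b'.h = b.h
  hl : b'.lam = b.lam
  sg : ∀ j, b'.σ j = 1 ∨ b'.σ j ∈ range s

end defs

/-- **PLN**: vectors in few planes -/
def PLN : Prop := ∀ (l : ℕ) (α : Type) (v : α → Fin l → ℤ) (u : Fin l → Fin 2 → Fin l → ℚ)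
  (A : Finset α), (∀ a ∈ A, ∃ j, (fun i => (v a i : ℚ)) ∈ Submodule.span ℚ (range (u j))) →
    ∃ Δ ⊆ A, Δ.card ≤ 8 * l ∧ ∀ m : Fin l → ℤ, (∀ a ∈ Δ, 0 ≤ m ⬝ᵥ v a) → ∀ a ∈ A, 0 ≤ m ⬝ᵥ v a

open Classical in
/-- **BLD**: the Cox data, generators `1` and `s` -/
def BLD : Prop := ∀ (L : Type) [Field L] [Algebra ℂ L] (c l : ℕ) (T : Set (Pl L))
  (S : Finset (Pl L)) (s : Fin l → L) (y : Fin c → L) (h : L) (lam : Pl L → L), Mb c T S s →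
    Frm y → h ≠ 0 → (∀ p ∈ T, p ∉ S → kap y p = p.ord h) → (∀ p, lam p ≠ 0) →
    (∀ p ∈ S, lam p = 1) →
    (∀ p ∈ T, p ∉ S → ∀ p' ∈ T, p' ∉ S → p'.ord (lam p) = if p' = p then 1 else 0) →
    ∃ b : Ba L c, b.Ok (S.card + l) ∧ b.T = T ∧ b.S = S ∧ b.s = y ∧ b.h = h ∧ b.lam = lam ∧
      (∀ j, b.σ j = 1 ∨ b.σ j ∈ range s) ∧ ∀ j, s j ∈ range b.σ

/-- **RS0**: the smaller base exists -/
def RS0 : Prop := ∀ (L : Type) [Field L] [Algebra ℂ L] (c l : ℕ) (b : Ba L c) (s : Fin l → L)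
  (Δ : Finset (Pl L)), Kk b s → Δ ⊆ b.S → ∃ b', Rs b b' s Δ

/-- **RES**: the package over the smaller base -/
def RES : Prop := ForA fun L _ _ _ _ _ _ _ _ b y T => ∀ (l : ℕ) (s : Fin l → L) Δ b' n d q ε g κ,
  Rs b b' s Δ → Pk n d q ε b y T g κ → (∀ P ∈ T, ∀ p ∈ b.S, At P p → p ∈ Δ) →
    Pk (Δ.card + l) d q ε b' y T g κ ∧ cz b' y = cz b y

/-- **CRK**: Caratheodory on the primes over the boundary -/
def CRK : Prop := ForA fun L K _ _ _ _ _ _ ρ b y T => ∀ (l : ℕ) (s : Fin l → L) Q ξ, Kk b s →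
  Fm b y T → Rep L y T Q ξ → ∃ (ξ' : Pl K → ℝ) (t : Finset (Pl K)), Rep L y T Q ξ' ∧
    t.card ≤ 9 * l + ρ ∧ (∀ P, P ∈ t ↔ P ∈ Kt y T b.S ∧ ξ' P ≠ 0) ∧
      ∀ P ∉ Kt y T b.S, 0 < ξ P → 0 < ξ' P

open Classical in
/-- **WIK**: the wide state -/
def WIK : Prop := ∀ (B q : ℕ) (ε : ℝ), 0 < q → 0 < ε → ∃ W m : ℕ, 2 ≤ m ∧
  ForB fun L K _ _ _ _ _ _ c r ρ b y u T => ∀ (l : ℕ) (s : Fin l → L) n ψ κ Q ξ I J
    (t : Finset (Pl K)), Kk b s → l ≤ B → c + r + ρ ≤ B → J.card ≤ B → t.card ≤ B →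
    Sc W n q ε b y u T ψ κ Q ξ I (J ∪ b.S) →
    (∀ P ∈ Kt (Fin.append y u) T (J ∪ b.S), ξ P ≠ 0 → P ∈ t) →
    Sec q m (cz b (Fin.append y u)) T (lv (Fin.append y u) ψ) κ Q

/-- **PQK**: the theorem at one place -/
def PQK : Prop := ∀ (l d q : ℕ) (ε : ℝ), 0 < q → 0 < ε → ∃ m : ℕ, 2 ≤ m ∧
  ForA fun L K _ _ _ _ _ _ _ b y T => ∀ (s : Fin l → L) n g κ (Q : Pl K), Kk b s →
    Pk n d q ε b y T g κ → (∀ a : K, a ≠ 0 → (∀ P ∈ T, 0 ≤ P.ord a) → 0 ≤ Q.ord a) →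
    Sec q m (cz b y) T g κ Q

/-- **WTK**: the theorem on the tier -/
def WTK : Prop := ∀ (l n q : ℕ) (ε : ℝ), 0 < q → 0 < ε → ∃ M : ℕ, 1 ≤ M ∧
  ∀ (L K : Type) [Field L] [Algebra ℂ L] [Field K] [Algebra ℂ K] [Algebra L K]
    [IsScalarTower ℂ L K] (c ρ : ℕ) (u : Finset K) (Λ Γ Γ' : BD K) (b : Ba L c) (y : Fin ρ → K)
    (s : Fin l → L), Kk b s → c + ρ = n + 1 → Dat n u Λ Γ Γ' → Fm b y (Tt n u Λ) →
    (∀ R ∈ Tt n u Λ, dsc (n + 1) Γ R ≤ 0 ∧ ∃ m : ℤ, q * dsc (n + 1) Γ R = m) →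
    (∀ R, Ov u R → ε ≤ 1 + dsc (n + 1) Γ R) → NefO n K u (-Γ) → Cpl n M u Λ Γ

/-- **BSK**: the base -/
def BSK : Prop := ∀ (Y : Sl.Var) (l : ℕ), Sl.Planar l Y →
  ∃ (c : ℕ) (b : Ba Y.K c) (s : Fin l → Y.K), Kk b s ∧ b.T = range (Gl.pq (X := Y.o))

open Sl Sl.Var in
/-- **ONK** -/
def ONK : Prop := ∀ M : ℕ → ℕ, On fun d _ Z f ω B z => FanoType f ω ∧ NefOver f (-logCan ω B) ∧
  ∃ W : Z.X.Opens, z.In W ∧ PlanarQuot (M d) (pre f W)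

open Sl Sl.Var in
/-- **OLD**: the old class is contained -/
def OLD : Prop := ∀ (l : ℕ) (X : Sl.Var) (V : X.X.Opens), CoxQuotient l V → PlanarQuot l V

/-- **RSR** -/
def RSR : Prop := BLD → RS0

/-- **HLK**: integer Helly, `Cq.MON` over the smaller bases -/
def HLK : Prop := RS0 → RES → WIK

/-- **PQS** -/
def PQS : Prop := RS0 → RES → CRK → WIK → PQK

/-- **WTS** -/
def WTS : Prop := PQK → WTK

/-- **BSR** -/
def BSR : Prop := PLN → BLD → BSK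

/-- **ONS** -/
def ONS : Prop := BSK → WTK → ONK

theorem onk (pln : PLN) (bld : BLD) (rsr : RSR) (res : RES) (crk : CRK) (hlk : HLK) (pqs : PQS)
    (wts : WTS) (bsr : BSR) (ons : ONS) : ONK :=
  ons (bsr pln bld) (wts (pqs (rsr bld) res crk (hlk (rsr bld) res)))

end Vale.Agent.P283R.Ck
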