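import Vale.Agent.P283R.Ck.St

/-!
# P283R, block CK: the row WTS
-/

open Set

noncomputable section

namespace Vale.Agent.P283R.Ck

open Vale.Agent.P287D Vale.Agent.P283M Cx Cy

theorem wts9 : WTS := by
  intro pq l n q ε q0 e0
  obtain ⟨m, m2, H⟩ := pq l (n + 1) q ε q0 e0
  refine ⟨q * m, Nat.mul_pos q0 (by omega), ?_⟩
  intro L K _ _ _ _ _ _ c ρ u Λ Γ Γ' b y s kk hn a fm hi lc nf
  obtain ⟨g, κ, lk, pk⟩ := Cq.cdr42 Cq.cz60 (Wc.avr95 Wc.cox36 Wc.loc24) n K u Λ Γ Γ' a L _ q c ρ ε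
    b y q0 e0 kk.ok hn fm hi lc nf
  exact Wc.bkr64 Wc.cox36 n K u Λ Γ Γ' a q m _ g κ q0 m2 lk fun Q o =>
    H L K c ρ b y _ s _ g κ Q kk pk fun x x0 hx => Wc.ovq22 n K u Λ Γ Γ' a Q x o x0 hx

end Vale.Agent.P283R.Ck
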